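import Mathlib

/-! # Norms and base change (helper63) -/

namespace Vale.Agent.P011.Hey.H63

open Module TensorProduct

set_option linter.style.haveILetI false
set_option linter.unusedSectionVars false

section

variable {k E K₁ K₂ : Type*} [Field k] [CommRing E] [Algebra k E] [FiniteDimensional k E]
  [Field K₁] [Field K₂] [Algebra k K₁] [Algebra k K₂]

/-- The norm of `K ⊗ E` commutes with the extension of the field `K`. -/
theorem norm_map (φ : K₁ →ₐ[k] K₂) (x : K₁ ⊗[k] E) :
    Algebra.norm K₂ (Algebra.TensorProduct.map φ (AlgHom.id k E) x) = φ (Algebra.norm K₁ x) := by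
  classical
  let b := Module.finBasis k E
  let b₁ := Algebra.TensorProduct.basis K₁ b
  let b₂ := Algebra.TensorProduct.basis K₂ b
  rw [Algebra.norm_eq_matrix_det b₁, Algebra.norm_eq_matrix_det b₂]
  have h : Algebra.leftMulMatrix b₂ (Algebra.TensorProduct.map φ (AlgHom.id k E) x) =
      (Algebra.leftMulMatrix b₁ x).map φ := by
    induction x with
    | zero => simp
    | add x y hx hy => rw [map_add, map_add, hx, hy, map_add, Matrix.map_add _ (map_add φ)]
    | tmul a e =>
      ext i j
      rw [Matrix.map_apply, Algebra.leftMulMatrix_eq_repr_mul, Algebra.leftMulMatrix_eq_repr_mul,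
        Algebra.TensorProduct.map_tmul, AlgHom.id_apply]
      simp only [b₁, b₂, Algebra.TensorProduct.basis_apply, Algebra.TensorProduct.tmul_mul_tmul,
        mul_one, Algebra.TensorProduct.basis_repr_tmul]
      simp
  rw [h]
  exact (RingHom.map_det (φ : K₁ →+* K₂) _).symm

/-- global elements -/
theorem norm_one_tmul (e : E) : Algebra.norm K₁ ((1 : K₁) ⊗ₜ[k] e) =
    algebraMap k K₁ (Algebra.norm k e) := by
  classical
  let b := Module.finBasis k E
  let b₁ := Algebra.TensorProduct.basis K₁ b
  rw [Algebra.norm_eq_matrix_det b₁, Algebra.norm_eq_matrix_det b]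
  have h : Algebra.leftMulMatrix b₁ ((1 : K₁) ⊗ₜ[k] e) =
      (Algebra.leftMulMatrix b e).map (algebraMap k K₁) := by
    ext i j
    rw [Matrix.map_apply, Algebra.leftMulMatrix_eq_repr_mul, Algebra.leftMulMatrix_eq_repr_mul]
    simp only [b₁, Algebra.TensorProduct.basis_apply, Algebra.TensorProduct.tmul_mul_tmul,
        mul_one, Algebra.TensorProduct.basis_repr_tmul]
    simp
  rw [h]
  exact (RingHom.map_det (algebraMap k K₁) _).symm

end

section tower

variable {k R E M : Type*} [Field k] [Field R] [Field E] [Field M] [Algebra k R] [Algebra k E]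
  [Algebra k M] [Algebra R M] [Algebra E M] [IsScalarTower k R M] [IsScalarTower k E M]
  [FiniteDimensional k E] [FiniteDimensional k R]

/-- `R ⊗ E → M` -/
noncomputable def toM : R ⊗[k] E →ₐ[R] M :=
  Algebra.TensorProduct.lift (Algebra.ofId R M) (IsScalarTower.toAlgHom k E M)
    fun _ _ => Commute.all _ _

@[simp] theorem toM_tmul (r : R) (e : E) :
    (toM (r ⊗ₜ[k] e) : M) = algebraMap R M r * algebraMap E M e := by
  simp [toM, Algebra.ofId_apply]

/-- If the degree of `E/k` is a prime `p`, `R/k` is of degree prime to `p` and `M/R` of degree `p`,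
then `M = R ⊗ E`. -/
theorem toM_bijective {p : ℕ} (hp : p.Prime) (hE : finrank k E = p) (hM : finrank R M = p)
    (hc : Nat.Coprime (finrank k R) p) :
    Function.Bijective (toM : R ⊗[k] E →ₐ[R] M) := by
  haveI : FiniteDimensional R M := FiniteDimensional.of_finrank_pos (by rw [hM]; exact hp.pos)
  have hdim : finrank R (R ⊗[k] E) = finrank R M := by
    rw [Module.finrank_baseChange, hE, hM]
  have hsurj : Function.Surjective (toM : R ⊗[k] E →ₐ[R] M) := by
    -- the range is a subalgebra
    let A : Subalgebra R M := (toM : R ⊗[k] E →ₐ[R] M).range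
    let F : IntermediateField R M := A.toIntermediateField' (by
      haveI : Algebra.IsAlgebraic R M := inferInstance
      exact Subalgebra.isField_of_algebraic A)
    have hF : (F : Set M) = A := rfl
    have h1 : finrank R F ∣ p := by
      rw [← hM]; exact ⟨_, (Module.finrank_mul_finrank R F M).symm⟩
    have h2 : finrank R F ≠ 1 := by
      intro h
      rw [IntermediateField.finrank_eq_one_iff] at h
      -- then `E` embeds in `R`
      have h3 : ∀ e : E, ∃ r : R, algebraMap R M r = algebraMap E M e := by
        intro e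
        have h4 : algebraMap E M e ∈ F := by
          have : (toM ((1 : R) ⊗ₜ[k] e) : M) ∈ A := ⟨_, rfl⟩
          rw [toM_tmul, map_one, one_mul] at this
          exact this
        rw [h, IntermediateField.mem_bot] at h4
        exact h4
      choose g hg using h3
      have hinj := (algebraMap R M).injective
      let φ : E →ₐ[k] R :=
        { toFun := g
          map_one' := hinj (by rw [hg, map_one, map_one])
          map_mul' := fun x y => hinj (by rw [map_mul, hg, hg, hg, map_mul])
          map_zero' := hinj (by rw [hg, map_zero, map_zero])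
          map_add' := fun x y => hinj (by rw [map_add, hg, hg, hg, map_add])
          commutes' := fun r => hinj (by
            rw [hg, ← IsScalarTower.algebraMap_apply, ← IsScalarTower.algebraMap_apply]) }
      letI : Algebra E R := φ.toRingHom.toAlgebra
      haveI : IsScalarTower k E R := IsScalarTower.of_algebraMap_eq fun x => (φ.commutes x).symm
      have h5 : p ∣ finrank k R := by
        rw [← Module.finrank_mul_finrank k E R, hE]; exact dvd_mul_right _ _
      rw [Nat.coprime_comm, hp.coprime_iff_not_dvd] at hc
      exact hc h5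
    have h3 : finrank R F = finrank R M := by
      rw [hM]; exact ((Nat.dvd_prime hp).mp h1).resolve_left h2
    have h4 : F = ⊤ := IntermediateField.eq_of_le_of_finrank_eq le_top
      (by rw [IntermediateField.finrank_top', h3])
    intro x
    have h5 : x ∈ F := by rw [h4]; trivial
    exact h5
  exact ⟨(LinearMap.injective_iff_surjective_of_finrank_eq_finrank
    (f := (toM : R ⊗[k] E →ₐ[R] M).toLinearMap) hdim).mpr hsurj, hsurj⟩

/-- Norms from `F ⊗ M` over a field `F` containing `R`. -/
theorem exists_norm {p : ℕ} (hp : p.Prime) (hE : finrank k E = p) (hM : finrank R M = p)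
    (hc : Nat.Coprime (finrank k R) p) {F : Type*} [Field F] [Algebra R F] [Algebra k F]
    [IsScalarTower k R F] (c : k) (h : ∃ x : F ⊗[k] E, Algebra.norm F x = algebraMap k F c) :
    ∃ x : F ⊗[R] M, Algebra.norm F x = algebraMap R F (algebraMap k R c) := by
  obtain ⟨x, hx⟩ := h
  let e₁ : R ⊗[k] E ≃ₐ[R] M := AlgEquiv.ofBijective toM (toM_bijective hp hE hM hc)
  let e₂ : F ⊗[R] (R ⊗[k] E) ≃ₐ[F] F ⊗[k] E := Algebra.TensorProduct.cancelBaseChange k R F F E
  let e₃ : F ⊗[R] (R ⊗[k] E) ≃ₐ[F] F ⊗[R] M :=
    Algebra.TensorProduct.congr AlgEquiv.refl e₁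
  refine ⟨e₃ (e₂.symm x), ?_⟩
  rw [Algebra.norm_eq_of_algEquiv e₃, Algebra.norm_eq_of_algEquiv e₂.symm, hx,
    IsScalarTower.algebraMap_apply k R F]

end tower

end Vale.Agent.P011.Hey.H63
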