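import Mathlib

/-! # Separable extensions of prime degree become cyclic over an extension of prime-to-`p` degree
(helper63) -/

namespace Vale.Agent.P011.Hey.H63

open Polynomial Module IntermediateField

set_option linter.style.haveILetI false
set_option linter.unusedSectionVars false

section tower

/-- A separable extension `E/k` of prime degree `p`: there are a finite extension `R/k` of degree
prime to `p` and a Galois extension `M/R` of degree `p` which contains `E`. -/
theorem exists_tower {k E : Type} [Field k] [Field E] [Algebra k E] [FiniteDimensional k E]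
    [Algebra.IsSeparable k E] {p : ℕ} (hp : p.Prime) (hE : finrank k E = p) :
    ∃ (R M : Type) (_ : Field R) (_ : Field M) (_ : Algebra k R) (_ : Algebra R M)
      (_ : Algebra k M) (_ : Algebra E M) (_ : IsScalarTower k R M) (_ : IsScalarTower k E M),
      FiniteDimensional k R ∧ Algebra.IsSeparable k R ∧ FiniteDimensional R M ∧ IsGalois R M ∧
        finrank R M = p ∧ Nat.Coprime (finrank k R) p := by
  classical
  haveI : Fact p.Prime := ⟨hp⟩
  obtain ⟨θ, hθ⟩ := Field.exists_primitive_element k E
  have hi : IsIntegral k θ := Algebra.IsIntegral.isIntegral θ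
  set f : k[X] := minpoly k θ with hf
  have hfsep : f.Separable := Algebra.IsSeparable.isSeparable k θ
  have hfdeg : f.natDegree = p := by
    rw [hf, ← IntermediateField.adjoin.finrank hi, hθ, IntermediateField.finrank_top', hE]
  let M := f.SplittingField
  haveI : IsGalois k M := IsGalois.of_separable_splitting_field hfsep
  have hne : Nonempty (E →ₐ[k] M) := by
    refine nonempty_algHom_of_adjoin_splits (S := {θ}) (fun s hs => ?_) hθ
    rw [Set.mem_singleton_iff] at hs
    subst hs
    exact ⟨hi, SplittingField.splits f⟩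
  obtain ⟨ι⟩ := hne
  letI : Algebra E M := ι.toRingHom.toAlgebra
  haveI : IsScalarTower k E M := IsScalarTower.of_algebraMap_eq fun x => (ι.commutes x).symm
  haveI : FiniteDimensional k M := inferInstance
  -- the order of the Galois group
  have hcard : Nat.card (M ≃ₐ[k] M) = finrank k M := IsGalois.card_aut_eq_finrank k M
  have hpd : p ∣ Nat.card (M ≃ₐ[k] M) := by
    rw [hcard, ← Module.finrank_mul_finrank k E M, hE]
    exact dvd_mul_right _ _
  haveI : Fact ((f.map (algebraMap k M)).Splits) := ⟨SplittingField.splits f⟩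
  have hdvd : Nat.card (M ≃ₐ[k] M) ∣ p.factorial := by
    have h1 : Nat.card (M ≃ₐ[k] M) ∣ Nat.card (Equiv.Perm (f.rootSet M)) :=
      Subgroup.card_dvd_of_injective (Gal.galActionHom f M) (Gal.galActionHom_injective f M)
    rw [Nat.card_perm] at h1
    refine h1.trans (Nat.factorial_dvd_factorial ?_)
    have h2 := Polynomial.ncard_rootSet_le f M
    rw [hfdeg] at h2
    exact h2
  have hfac : (Nat.card (M ≃ₐ[k] M)).factorization p = 1 := by
    refine le_antisymm ?_ ?_
    · have h1 := (Nat.factorization_le_iff_dvd Nat.card_pos.ne' (Nat.factorial_ne_zero p)).mpr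
        hdvd p
      have h2 : (p.factorial).factorization p = 1 := by
        obtain ⟨n, hn⟩ : ∃ n, p = n + 1 := ⟨p - 1, by have := hp.one_lt; omega⟩
        have h3 : p.factorial = p * (p - 1).factorial := by
          rw [hn, Nat.factorial_succ, Nat.add_sub_cancel]
        have h4 : ¬ p ∣ (p - 1).factorial := by
          rw [hp.dvd_factorial]; have := hp.one_lt; omega
        rw [h3, Nat.factorization_mul hp.ne_zero (Nat.factorial_ne_zero _), Finsupp.add_apply,
          hp.factorization_self, Nat.factorization_eq_zero_of_not_dvd h4]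
      rwa [h2] at h1
    · exact (hp.dvd_iff_one_le_factorization Nat.card_pos.ne').mp hpd
  obtain ⟨P⟩ : Nonempty (Sylow p (M ≃ₐ[k] M)) := inferInstance
  have hP : Nat.card P = p := by
    rw [P.card_eq_multiplicity, hfac, pow_one]
  let R := IntermediateField.fixedField (P : Subgroup (M ≃ₐ[k] M))
  have hRM : finrank R M = p := by
    rw [IntermediateField.finrank_fixedField_eq_card]; exact hP
  have hkR : finrank k R * p = Nat.card (M ≃ₐ[k] M) := by
    rw [hcard, ← Module.finrank_mul_finrank k R M, hRM]
  refine ⟨R, M, inferInstance, inferInstance, inferInstance, inferInstance, inferInstance,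
    inferInstance, inferInstance, inferInstance, inferInstance, inferInstance, inferInstance,
    inferInstance, hRM, ?_⟩
  rw [Nat.coprime_comm, hp.coprime_iff_not_dvd]
  intro hd
  have h1 : p ^ 2 ∣ Nat.card (M ≃ₐ[k] M) := by
    rw [← hkR, pow_two]; exact Nat.mul_dvd_mul_right hd p
  have h2 := (hp.pow_dvd_iff_le_factorization Nat.card_pos.ne').mp h1
  omega

/-- an element of a group with two coprime powers in a subgroup -/
theorem mem_of_pow {G : Type*} [CommGroup G] (H : Subgroup G) {x : G} {m n : ℕ}
    (h : Nat.Coprime m n) (hm : x ^ m ∈ H) (hn : x ^ n ∈ H) : x ∈ H := by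
  have h1 := Nat.gcd_eq_gcd_ab m n
  rw [h, Nat.cast_one] at h1
  have h2 : x = (x ^ m) ^ (Nat.gcdA m n) * (x ^ n) ^ (Nat.gcdB m n) := by
    rw [← zpow_natCast, ← zpow_natCast, ← zpow_mul, ← zpow_mul, ← zpow_add, ← h1, zpow_one]
  rw [h2]
  exact H.mul_mem (H.zpow_mem hm _) (H.zpow_mem hn _)

/-- Going down the tower. -/
theorem norm_of_tower {k E R M : Type} [Field k] [Field E] [Field R] [Field M] [Algebra k E]
    [Algebra k R] [Algebra k M] [Algebra R M] [Algebra E M] [IsScalarTower k R M]
    [IsScalarTower k E M] [FiniteDimensional k E] [FiniteDimensional k R] [FiniteDimensional R M]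
    (hc : Nat.Coprime (finrank k R) (finrank k E)) (c : k) (y : M)
    (hy : Algebra.norm R y = algebraMap k R c) : ∃ e : E, Algebra.norm k e = c := by
  by_cases h0 : c = 0
  · subst h0
    exact ⟨0, by rw [Algebra.norm_zero]⟩
  haveI : FiniteDimensional k M := FiniteDimensional.trans k R M
  haveI : FiniteDimensional E M := FiniteDimensional.right k E M
  let N : Subgroup kˣ := (Units.map (Algebra.norm k (S := E))).range
  have hN : ∀ (c : k) (hc0 : c ≠ 0), Units.mk0 c hc0 ∈ N ↔ ∃ e : E, Algebra.norm k e = c := by
    intro c hc0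
    constructor
    · rintro ⟨u, hu⟩
      exact ⟨u, by simpa using congrArg Units.val hu⟩
    · rintro ⟨e, he⟩
      have he0 : e ≠ 0 := by
        rintro rfl
        rw [Algebra.norm_zero] at he
        exact hc0 he.symm
      exact ⟨Units.mk0 e he0, Units.ext (by simpa using he)⟩
  rw [← hN c h0]
  refine mem_of_pow N hc ?_ ?_
  · have h1 : (Units.mk0 c h0) ^ finrank k R = Units.mk0 (c ^ finrank k R) (pow_ne_zero _ h0) := by
      ext; simp
    rw [h1, hN]
    refine ⟨Algebra.norm E y, ?_⟩
    rw [Algebra.norm_norm, ← Algebra.norm_norm (S := R), hy, Algebra.norm_algebraMap]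
  · have h1 : (Units.mk0 c h0) ^ finrank k E = Units.mk0 (c ^ finrank k E) (pow_ne_zero _ h0) := by
      ext; simp
    rw [h1, hN]
    exact ⟨algebraMap k E c, Algebra.norm_algebraMap c⟩

end tower

end Vale.Agent.P011.Hey.H63
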