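import Vale.Agent.P011.H271.PlaceK
import Vale.Agent.P011.Hey.H63.NormBC
import Vale.Agent.P011.Hey.H63.Tower

/-! # Restriction of a place to a subfield; the maps between the completions (helper63) -/

namespace Vale.Agent.P011.Hey.H63

open Module TensorProduct
open Vale.Agent.P011.H738 Vale.Agent.P011.H271

set_option linter.style.haveILetI false
set_option linter.unusedSectionVars false

section

variable {k R : Type} [Field k] [Field R] [Algebra k R]

/-- A finite extension of a global function field is one. -/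
theorem gff_of_finite [h : GFF k] [FiniteDimensional k R] : GFF R := by
  obtain ⟨F, iF, iFin, φ, hφ1, hφ2⟩ := h.out
  letI : Algebra (RatFunc F) k := φ.toAlgebra
  haveI : FiniteDimensional (RatFunc F) k := hφ1
  letI : Algebra (RatFunc F) R := ((algebraMap k R).comp φ).toAlgebra
  haveI : IsScalarTower (RatFunc F) k R := IsScalarTower.of_algebraMap_eq' rfl
  haveI : FiniteDimensional (RatFunc F) R := FiniteDimensional.trans (RatFunc F) k R
  exact GFF.mk' F R

/-- The restriction of a nontrivial valuation ring to a subfield of finite index. -/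
theorem comap_ne_top [Algebra.IsAlgebraic k R] {W : ValuationSubring R} (hW : W ≠ ⊤) :
    W.comap (algebraMap k R) ≠ ⊤ := by
  intro h
  refine hW (eq_top_iff.mpr fun x _ => ?_)
  have hx : IsIntegral k x := Algebra.IsIntegral.isIntegral x
  have h1 : ∀ a : k, algebraMap k R a ∈ W := by
    intro a
    have : a ∈ W.comap (algebraMap k R) := by rw [h]; trivial
    exact this
  obtain ⟨f, hf, hfx⟩ := hx
  let φ : k →+* W := (algebraMap k R).codRestrict W.toSubring h1
  have h2 : IsIntegral W x := by
    refine ⟨f.map φ, hf.map φ, ?_⟩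
    rw [Polynomial.eval₂_map]
    exact hfx
  obtain ⟨y, hy⟩ := IsIntegrallyClosed.isIntegral_iff.mp h2
  rw [← hy]; exact y.2

/-- The place below. -/
theorem exists_below [GFF k] [GFF R] [Algebra.IsAlgebraic k R] (W : Place R) :
    ∃ v : Place k, ∃ c : ℝ, 0 < c ∧ ∀ x : k, W.abv (algebraMap k R x) = v.abv x ^ c := by
  obtain ⟨v, hv⟩ := toPl_surjective (k := k)
    ⟨(toPl W).1.comap (algebraMap k R), comap_ne_top (toPl W).2⟩
  refine ⟨v, ?_⟩
  have h1 : ∀ x : k, v.abv x ≤ 1 ↔ W.abv (algebraMap k R x) ≤ 1 := by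
    intro x
    rw [← toPl_le_one v x, ← (toPl v).mem_iff, ← toPl_le_one W, ← (toPl W).mem_iff, hv]
    rfl
  let a : AbsoluteValue k ℝ := W.abv.comp (algebraMap k R).injective
  have h2 : v.abv.IsEquiv a := by
    intro x y
    by_cases hy : y = 0
    · subst hy
      rw [map_zero, map_zero, AbsoluteValue.nonpos_iff, AbsoluteValue.nonpos_iff]
    have h3 := h1 (x / y)
    have hy' : algebraMap k R y ≠ 0 := (map_ne_zero _).mpr hy
    rw [map_div₀, map_div₀, map_div₀, div_le_one (v.abv.pos hy), div_le_one (W.abv.pos hy')] at h3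
    exact h3
  obtain ⟨c, hc, h⟩ := AbsoluteValue.isEquiv_iff_exists_rpow_eq.mp h2
  exact ⟨c, hc, fun x => (congrFun h x).symm⟩

open WithAbs in
/-- The map between the completions. -/
theorem exists_compHom (v : Place k) (W : Place R) {c : ℝ} (hc : 0 < c)
    (h : ∀ x : k, W.abv (algebraMap k R x) = v.abv x ^ c) :
    ∃ φ : v.comp →+* W.comp, ∀ x : k, φ (algebraMap k v.comp x) =
      algebraMap R W.comp (algebraMap k R x) := by
  let f : WithAbs v.abv →+* WithAbs W.abv :=
    ((WithAbs.equiv W.abv).symm : R →+* WithAbs W.abv).comp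
      ((algebraMap k R).comp (WithAbs.equiv v.abv : WithAbs v.abv →+* k))
  have hf : ∀ x : WithAbs v.abv, ‖f x‖ = ‖x‖ ^ c := fun x => h _
  have hcont : Continuous f := by
    refine continuous_of_continuousAt_zero f ?_
    rw [ContinuousAt, map_zero, tendsto_zero_iff_norm_tendsto_zero]
    simp only [hf]
    have h1 : Filter.Tendsto (fun x : WithAbs v.abv => ‖x‖ ^ c) (nhds 0) (nhds (‖(0 : WithAbs v.abv)‖ ^ c)) :=
      (Real.continuousAt_rpow_const _ _ (Or.inr hc.le)).tendsto.comp continuous_norm.continuousAt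
    rwa [norm_zero, Real.zero_rpow hc.ne'] at h1
  refine ⟨UniformSpace.Completion.mapRingHom f hcont, fun x => ?_⟩
  exact UniformSpace.Completion.mapRingHom_coe hcont _

end

end Vale.Agent.P011.Hey.H63
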