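import Vale.Agent.P011.Hey.H63.PlaceRes

/-! # From the cyclic case of the Hasse norm theorem over global function fields to all separable
extensions of prime degree (helper63) -/

namespace Vale.Agent.P011.Hey.H63

open Module TensorProduct
open Vale.Agent.P011.H738 Vale.Agent.P011.H271

set_option linter.style.haveILetI false
set_option linter.unusedSectionVars false

/-- `c` is a norm from `k_v ⊗ E`. -/
def LocN {k : Type} [Field k] (E : Type) [Field E] [Algebra k E] (c : k) (v : Place k) : Prop :=
  ∃ x : v.comp ⊗[k] E, Algebra.norm v.comp x = algebraMap k v.comp c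

/-- The Hasse norm theorem for the cyclic extensions of degree `p` of the global function
fields. -/
def CycN (p : ℕ) : Prop :=
  ∀ (k L : Type) [Field k] [GFF k] [Field L] [Algebra k L] [FiniteDimensional k L] [IsGalois k L],
    finrank k L = p → ∀ c : k, (∀ v : Place k, LocN L c v) → ∃ y : L, Algebra.norm k y = c

/-- A local norm stays a local norm over an extension. -/
theorem locN_up {k R E M : Type} [Field k] [GFF k] [Field R] [Field E] [Field M] [Algebra k R]
    [Algebra k E] [Algebra k M] [Algebra R M] [Algebra E M] [IsScalarTower k R M]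
    [IsScalarTower k E M] [FiniteDimensional k E] [FiniteDimensional k R] {p : ℕ} (hp : p.Prime)
    (hE : finrank k E = p) (hM : finrank R M = p) (hc : Nat.Coprime (finrank k R) p) (c : k)
    (h : ∀ v : Place k, LocN E c v) (W : Place R) : LocN M (algebraMap k R c) W := by
  haveI : GFF R := gff_of_finite (k := k)
  obtain ⟨v, s, hs, hvW⟩ := exists_below (k := k) W
  obtain ⟨φ, hφ⟩ := exists_compHom v W hs hvW
  let φ' : v.comp →ₐ[k] W.comp := { φ with commutes' := fun x => hφ x }
  obtain ⟨x, hx⟩ := h v
  refine exists_norm (F := W.comp) hp hE hM hc c ⟨Algebra.TensorProduct.map φ' (AlgHom.id k E) x, ?_⟩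
  rw [norm_map, hx]
  exact φ'.commutes c

/-- **The Hasse norm theorem for a separable extension of prime degree of a global function
field** (cyclic or not), from the cyclic case. -/
theorem norm_of_local_prime {p : ℕ} (hp : p.Prime) (H : CycN p) {k E : Type} [Field k] [GFF k]
    [Field E] [Algebra k E] [Algebra.IsSeparable k E] (hE : finrank k E = p) (c : k)
    (h : ∀ v : Place k, LocN E c v) : ∃ e : E, Algebra.norm k e = c := by
  haveI : FiniteDimensional k E := FiniteDimensional.of_finrank_pos (by rw [hE]; exact hp.pos)
  obtain ⟨R, M, _, _, _, _, _, _, _, _, hR, _, _, _, hM, hc⟩ := exists_tower (k := k) (E := E) hp hE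
  haveI : GFF R := gff_of_finite (k := k)
  obtain ⟨y, hy⟩ := H R M hM (algebraMap k R c) (locN_up hp hE hM hc c h)
  exact norm_of_tower (hE ▸ hc) c y hy

end Vale.Agent.P011.Hey.H63
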