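import Vale.Agent.P011.Hey.H63.LocAbs
import Vale.Agent.P011.H373.LocNorm
import Mathlib.Analysis.Calculus.InverseFunctionTheorem.Deriv
import Mathlib.Analysis.Calculus.Deriv.Polynomial

/-! # Local norms near one, and at unramified places (helper63) -/

namespace Vale.Agent.P011.Hey.H63

open Polynomial Module TensorProduct

set_option linter.style.haveILetI false
set_option linter.unusedSectionVars false

section near

variable {k E K : Type*} [Field k] [Field E] [Algebra k E] [FiniteDimensional k E]

/-- the norm of `1 + z t` -/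
theorem norm_one_add [Field K] [Algebra k K] {n : Type*} [Fintype n] [DecidableEq n]
    (b : Basis n k E) (t : E) (z : K) :
    Algebra.norm K (1 + z • ((1 : K) ⊗ₜ[k] t)) =
      (1 + z • (Algebra.leftMulMatrix b t).map (algebraMap k K)).det := by
  rw [Algebra.norm_eq_matrix_det (Algebra.TensorProduct.basis K b), map_add, map_one, map_smul]
  congr 3
  ext i j
  rw [Matrix.map_apply, Algebra.leftMulMatrix_eq_repr_mul, Algebra.leftMulMatrix_eq_repr_mul]
  simp only [Algebra.TensorProduct.basis_apply, Algebra.TensorProduct.tmul_mul_tmul,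
      mul_one, Algebra.TensorProduct.basis_repr_tmul]
  simp

/-- Elements near one are norms, with an explicit radius in the integral case. -/
theorem IsN.of_int [NormedField K] [IsUltrametricDist K] [CompleteSpace K] [Algebra k K]
    {n : Type*} [Fintype n] [DecidableEq n] (b : Basis n k E) (t : E)
    (hM : ∀ i j, ‖algebraMap k K (Algebra.leftMulMatrix b t i j)‖ ≤ 1)
    (htr : ‖algebraMap k K (Algebra.trace k E t)‖ = 1) {u : K} (hu : ‖u - 1‖ < 1) :
    IsN k E K u := by
  let M : Matrix n n (OK K) := fun i j => ⟨_, hM i j⟩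
  have hMt : ((M.trace : OK K) : K) = algebraMap k K (Algebra.trace k E t) := by
    rw [Algebra.trace_eq_matrix_trace b, Matrix.trace, Matrix.trace, map_sum]
    exact map_sum (OK K).subtype _ _
  obtain ⟨z, hz⟩ := exists_det M (by rw [hMt]; exact htr) hu
  refine ⟨1 + (z : K) • ((1 : K) ⊗ₜ[k] t), ?_⟩
  rw [norm_one_add b, ← hz]
  change _ = (OK K).subtype _
  rw [RingHom.map_det]
  congr 1
  ext i j
  simp [Matrix.one_apply, M]
  split_ifs <;> simp <;> rfl

/-- Elements near one are norms. -/
theorem isN_open [NontriviallyNormedField K] [CompleteSpace K] [Algebra k K]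
    [Algebra.IsSeparable k E] : ∃ δ : ℝ, 0 < δ ∧ ∀ u : K, ‖u - 1‖ < δ → IsN k E K u := by
  classical
  obtain ⟨t, ht⟩ := Algebra.trace_surjective k E 1
  let b := Module.finBasis k E
  let M := (Algebra.leftMulMatrix b t).map (algebraMap k K)
  let P : K[X] := (1 + (X : K[X]) • M.map C).det
  have hev : ∀ z : K, P.eval z = (1 + z • M).det := by
    intro z
    simp only [P]
    rw [← coe_evalRingHom, RingHom.map_det]
    congr 1
    ext i j
    simp [Matrix.one_apply, apply_ite]
    exact mul_comm _ _
  have htr : M.trace = 1 := by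
    rw [← map_one (algebraMap k K), ← ht, Algebra.trace_eq_matrix_trace b, Matrix.trace,
      Matrix.trace, map_sum]
    rfl
  have hder : (derivative P).eval 0 = 1 := by
    have h1 : P.coeff 1 = 1 := by
      simp only [P, Matrix.coeff_det_one_add_X_smul_one, htr]
    rw [← coeff_zero_eq_eval_zero, coeff_derivative, zero_add, h1]
    simp
  have hs := P.hasStrictDerivAt 0
  rw [hder] at hs
  have hmap := hs.map_nhds_eq one_ne_zero
  have hP0 : P.eval 0 = 1 := by rw [hev, zero_smul, add_zero, Matrix.det_one]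
  rw [hP0] at hmap
  have h2 : Set.range (fun z => P.eval z) ∈ nhds (1 : K) := by
    rw [← hmap]
    exact Filter.range_mem_map
  obtain ⟨δ, hδ, hball⟩ := Metric.mem_nhds_iff.mp h2
  refine ⟨δ, hδ, fun u hu => ?_⟩
  obtain ⟨z, hz⟩ := hball (mem_ball_iff_norm.mpr hu)
  refine ⟨1 + z • ((1 : K) ⊗ₜ[k] t), ?_⟩
  rw [norm_one_add b, ← hev]
  exact hz

end near

section integral

variable {k E : Type} [Field k] [Field E] [Algebra k E] [FiniteDimensional k E]

/-- The multiplication by an element of `A[θ]` has a matrix with entries in `A`. -/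
theorem exists_matrix (A : Subring k) (pb : PowerBasis k E) {F : A[X]}
    (hF : minpoly k pb.gen = F.map A.subtype) (g : A[X]) :
    ∃ N : Matrix (Fin pb.dim) (Fin pb.dim) A, N.map A.subtype =
      Algebra.leftMulMatrix pb.basis (aeval pb.gen (g.map A.subtype)) := by
  have h1 : ∃ N₁ : Matrix (Fin pb.dim) (Fin pb.dim) A, N₁.map A.subtype =
      Algebra.leftMulMatrix pb.basis pb.gen := by
    rw [PowerBasis.leftMulMatrix]
    refine ⟨Matrix.of fun i j => if (j : ℕ) + 1 = pb.dim then -F.coeff i else
      if (i : ℕ) = j + 1 then 1 else 0, ?_⟩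
    ext i j
    rw [Matrix.map_apply, Matrix.of_apply, Matrix.of_apply, PowerBasis.minpolyGen_eq, hF, coeff_map]
    split_ifs <;> simp
  obtain ⟨N₁, hN₁⟩ := h1
  refine ⟨aeval N₁ g, ?_⟩
  induction g using Polynomial.induction_on' with
  | add p q hp hq =>
    rw [map_add, Polynomial.map_add, map_add, map_add, Matrix.map_add _ (map_add A.subtype), hp, hq]
  | monomial n a =>
    have h2 : (N₁ ^ n).map A.subtype = (N₁.map A.subtype) ^ n :=
      map_pow (A.subtype.mapMatrix (m := Fin pb.dim)) N₁ n
    have h3 : ∀ M : Matrix (Fin pb.dim) (Fin pb.dim) A,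
        (algebraMap A (Matrix (Fin pb.dim) (Fin pb.dim) A) a * M).map A.subtype =
          algebraMap k _ (a : k) * M.map A.subtype := by
      intro M
      ext i j
      simp [Matrix.algebraMap_eq_diagonal]
    rw [aeval_monomial, map_monomial, aeval_monomial, map_mul, map_pow, h3, h2, hN₁,
      AlgHom.commutes]
    rfl

theorem norm_mem (A : Subring k) (pb : PowerBasis k E) {F : A[X]}
    (hF : minpoly k pb.gen = F.map A.subtype) (g : A[X]) :
    Algebra.norm k (aeval pb.gen (g.map A.subtype)) ∈ A := by
  obtain ⟨N, hN⟩ := exists_matrix A pb hF g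
  rw [Algebra.norm_eq_matrix_det pb.basis, ← hN]
  have : (N.map A.subtype).det = A.subtype N.det := (RingHom.map_det _ _).symm
  rw [this]; exact N.det.2

theorem trace_mem (A : Subring k) (pb : PowerBasis k E) {F : A[X]}
    (hF : minpoly k pb.gen = F.map A.subtype) (g : A[X]) :
    Algebra.trace k E (aeval pb.gen (g.map A.subtype)) ∈ A := by
  obtain ⟨N, hN⟩ := exists_matrix A pb hF g
  rw [Algebra.trace_eq_matrix_trace pb.basis, ← hN, Matrix.trace]
  exact sum_mem fun i _ => (N i i).2

/-- In the separable case some power of `θ` has a trace which is a unit. -/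
theorem exists_trace [Algebra.IsSeparable k E] (A : Subring k) (I : Ideal A) (hI : I.IsMaximal)
    (pb : PowerBasis k E) {F : A[X]} (hF : minpoly k pb.gen = F.map A.subtype)
    (hsep : F.Separable) :
    ∃ i : ℕ, ∀ h : Algebra.trace k E (pb.gen ^ i) ∈ A, (⟨_, h⟩ : A) ∉ I := by
  classical
  by_contra hcon
  push Not at hcon
  -- the norm of the derivative is a unit of `A`
  obtain ⟨a, b, hab⟩ := hsep
  set θ := pb.gen with hθ
  have h1 : aeval θ (b.map A.subtype) * aeval θ (derivative (minpoly k θ)) = 1 := by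
    have h2 := congrArg (fun P : A[X] => aeval θ (P.map A.subtype)) hab
    simp only [Polynomial.map_add, Polynomial.map_mul, Polynomial.map_one, map_add, map_mul,
      map_one, ← hF, minpoly.aeval, mul_zero, zero_add, ← derivative_map] at h2
    exact h2
  have hdm : derivative (minpoly k θ) = (derivative F).map A.subtype := by
    rw [hF, derivative_map]
  have h3 : Algebra.norm k (aeval θ (b.map A.subtype)) *
      Algebra.norm k (aeval θ (derivative (minpoly k θ))) = 1 := by
    rw [← map_mul, h1, map_one]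
  have h4 := norm_mem A pb hF b
  have h5 : Algebra.norm k (aeval θ (derivative (minpoly k θ))) ∈ A := by
    rw [hdm]; exact norm_mem A pb hF _
  -- the discriminant lies in the ideal
  have hpow : ∀ i : ℕ, θ ^ i = aeval θ ((X ^ i : A[X]).map A.subtype) := by
    intro i; simp
  have htr : ∀ i : ℕ, Algebra.trace k E (θ ^ i) ∈ A := by
    intro i; rw [hpow]; exact trace_mem A pb hF _
  have h6 := Algebra.discr_powerBasis_eq_norm k pb
  rw [Algebra.discr_def] at h6
  let T : Matrix (Fin pb.dim) (Fin pb.dim) A := fun i j => ⟨_, htr (i + j)⟩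
  have h7 : Algebra.traceMatrix k pb.basis = T.map A.subtype := by
    ext i j
    rw [Algebra.traceMatrix_apply, Algebra.traceForm_apply, pb.basis_eq_pow, pb.basis_eq_pow,
      Matrix.map_apply, ← pow_add]
    rfl
  have h8 : (Algebra.traceMatrix k pb.basis).det = A.subtype T.det := by
    rw [h7]; exact (RingHom.map_det _ _).symm
  have h9 : T.det ∈ I := by
    have hz : ∀ i j, T i j ∈ I := by
      intro i j
      obtain ⟨h, hh⟩ := hcon (i + j)
      exact hh
    rw [Matrix.det_apply]
    refine I.sum_mem fun σ _ => ?_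
    have hpos : 0 < pb.dim := pb.dim_pos
    refine Submodule.smul_of_tower_mem I _ ?_
    rw [← Finset.prod_erase_mul _ _ (Finset.mem_univ (⟨0, hpos⟩ : Fin pb.dim))]
    exact I.mul_mem_left _ (hz _ _)
  have h10 : (⟨_, h5⟩ : A) ∈ I := by
    have h11 : (⟨_, h5⟩ : A) = (-1) ^ (finrank k E * (finrank k E - 1) / 2) * T.det := by
      apply Subtype.ext
      push_cast
      have h12 : (T.det : k) = _ := h8.symm.trans h6
      rw [h12, ← mul_assoc, ← pow_add, ← two_mul, pow_mul, neg_one_sq, one_pow, one_mul]
    rw [h11]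
    exact I.mul_mem_left _ h9
  refine hI.ne_top ((Ideal.eq_top_iff_one I).mpr ?_)
  have h13 : (1 : A) = ⟨_, h4⟩ * ⟨_, h5⟩ := Subtype.ext h3.symm
  rw [h13]
  exact I.mul_mem_left _ h10

theorem isMaximal_of {K : Type*} [NormedField K] [Algebra k K] {A : Subring k}
    (hA : ∀ x : k, x ∈ A ↔ ‖algebraMap k K x‖ ≤ 1) {I : Ideal A}
    (hI : ∀ x : A, x ∈ I ↔ ‖algebraMap k K x‖ < 1) : I.IsMaximal := by
  rw [Ideal.isMaximal_iff]
  refine ⟨fun h => ?_, fun J x hIJ hx hxJ => ?_⟩
  · rw [hI, OneMemClass.coe_one, map_one, norm_one] at h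
    exact lt_irrefl _ h
  · have h1 : ‖algebraMap k K x‖ = 1 := by
      refine le_antisymm ((hA _).mp x.2) ?_
      rw [hI, not_lt] at hx
      exact hx
    have hx0 : (x : k) ≠ 0 := by
      intro h0
      rw [h0, map_zero, norm_zero] at h1
      exact zero_ne_one h1
    have h2 : (x : k)⁻¹ ∈ A := by rw [hA, map_inv₀, norm_inv, h1, inv_one]
    have h3 : (1 : A) = ⟨_, h2⟩ * x := Subtype.ext (inv_mul_cancel₀ hx0).symm
    rw [h3]
    exact J.mul_mem_left _ hxJ

/-- **Units are norms at an unramified place.** -/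
theorem IsN.unram {K : Type*} [NormedField K] [IsUltrametricDist K] [CompleteSpace K]
    [Algebra k K] [Algebra.IsSeparable k E] {A : Subring k}
    (hA : ∀ x : k, x ∈ A ↔ ‖algebraMap k K x‖ ≤ 1) {I : Ideal A}
    (hI : ∀ x : A, x ∈ I ↔ ‖algebraMap k K x‖ < 1) [Finite (A ⧸ I)] (pb : PowerBasis k E)
    {F : A[X]} (hFm : F.Monic) (hF : minpoly k pb.gen = F.map A.subtype) (hsep : F.Separable)
    {c : k} (hc : ‖algebraMap k K c‖ = 1) : IsN k E K (algebraMap k K c) := by
  classical
  have hmax := isMaximal_of hA hI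
  let _ : Field (A ⧸ I) := Ideal.Quotient.field I
  set π := Ideal.Quotient.mk I with hπ
  have hFdeg : F.natDegree = finrank k E := by
    rw [pb.finrank, ← pb.natDegree_minpoly, hF, natDegree_map_eq_of_injective A.subtype_injective]
  have hpos : 0 < finrank k E := finrank_pos
  obtain ⟨g', hg'⟩ := H373.exists_res (hFm.map π) (hsep.map) (by
    rw [hFm.natDegree_map, hFdeg]; exact hpos.ne') (π ⟨c, (hA c).mpr hc.le⟩)
  obtain ⟨g, rfl⟩ := Polynomial.map_surjective π Ideal.Quotient.mk_surjective g'
  have h1 : π (resultant F g) = π ⟨c, (hA c).mpr hc.le⟩ := by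
    rw [← hg', ← H373.res_deg (hFm.map π) (n := g.natDegree) natDegree_map_le, hFm.natDegree_map,
      resultant_map_map]
  set R : A := resultant F g with hR
  have h2 : ‖algebraMap k K (R - c)‖ < 1 := by
    have h3 : R - ⟨c, (hA c).mpr hc.le⟩ ∈ I := by
      rw [← Ideal.Quotient.eq_zero_iff_mem, map_sub, sub_eq_zero]
      exact h1
    exact (hI _).mp h3
  have h6 : Algebra.norm k (aeval pb.gen (g.map A.subtype)) = (R : k) := by
    rw [H373.norm_eq_resultant (by rw [hF, natDegree_map_eq_of_injective A.subtype_injective,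
      hFdeg]) _ natDegree_map_le, hF, ← hFdeg, resultant_map_map]
    rfl
  have hRn : ‖algebraMap k K R‖ = 1 := by
    have h7 : algebraMap k K R = algebraMap k K (R - c) + algebraMap k K c := by
      rw [← map_add, sub_add_cancel]
    rw [h7, IsUltrametricDist.norm_add_eq_max_of_norm_ne_norm (by rw [hc]; exact h2.ne), hc,
      max_eq_right h2.le]
  have hR0 : algebraMap k K R ≠ 0 := by rw [← norm_ne_zero_iff, hRn]; exact one_ne_zero
  -- the quotient is near one
  obtain ⟨i, hi⟩ := exists_trace A I hmax pb hF hsep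
  have hpow : pb.gen ^ i = aeval pb.gen ((X ^ i : A[X]).map A.subtype) := by simp
  have htr : Algebra.trace k E (pb.gen ^ i) ∈ A := by rw [hpow]; exact trace_mem A pb hF _
  have htr1 : ‖algebraMap k K (Algebra.trace k E (pb.gen ^ i))‖ = 1 := by
    refine le_antisymm ((hA _).mp htr) ?_
    have := hi htr
    rw [hI, not_lt] at this
    exact this
  obtain ⟨N, hN⟩ := exists_matrix A pb hF (X ^ i)
  have h8 : IsN k E K (algebraMap k K c / algebraMap k K R) := by
    refine IsN.of_int pb.basis (pb.gen ^ i) (fun a b => ?_) htr1 ?_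
    · rw [hpow, ← hN, Matrix.map_apply]
      exact (hA _).mp (N a b).2
    · have h9 : algebraMap k K c / algebraMap k K R - 1 =
          -(algebraMap k K (R - c)) / algebraMap k K R := by
        rw [map_sub]; field_simp; ring
      rw [h9, norm_div, norm_neg, hRn, div_one]
      exact h2
  have h10 : IsN k E K (algebraMap k K R) := by
    rw [← h6]; exact IsN.of_norm _
  have h11 := h8.mul h10
  rwa [div_mul_cancel₀ _ hR0] at h11

end integral

end Vale.Agent.P011.Hey.H63
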