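import Vale.Agent.P011.Hey.H63.Prime
import Vale.Agent.P011.Hey.H63.LocCrit
import Vale.Agent.P011.H271.KSF

/-! # Local criteria for the Hasse norm theorem over global function fields (helper63) -/

namespace Vale.Agent.P011.Hey.H63

open Polynomial Module TensorProduct
open Vale.Agent.P011.H738 Vale.Agent.P011.H271

set_option linter.style.haveILetI false
set_option linter.unusedSectionVars false

section

variable {k E : Type} [Field k] [Field E] [Algebra k E]

theorem locN_iff {c : k} {v : Place k} : LocN E c v ↔ IsN k E v.comp (algebraMap k v.comp c) :=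
  Iff.rfl

/-- The ring of the elements of `k` integral at `v`. -/
abbrev Ov (v : Place k) : Subring k := integers v.abv v.nonarch

/-- Its maximal ideal. -/
abbrev mv (v : Place k) : Ideal (Ov v) := maxIdeal v.abv v.nonarch

theorem mem_Ov (v : Place k) (x : k) : x ∈ Ov v ↔ ‖algebraMap k v.comp x‖ ≤ 1 := by
  rw [norm_alg]; rfl

theorem mem_mv (v : Place k) (x : Ov v) : x ∈ mv v ↔ ‖algebraMap k v.comp (x : k)‖ < 1 := by
  rw [norm_alg]; rfl

variable [FiniteDimensional k E] [Algebra.IsSeparable k E]

theorem LocN.mul {b c : k} {v : Place k} (hb : LocN E b v) (hc : LocN E c v) :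
    LocN E (b * c) v := by
  rw [locN_iff] at *
  rw [map_mul]; exact hb.mul hc

theorem LocN.inv {b : k} {v : Place k} (hb : LocN E b v) : LocN E b⁻¹ v := by
  rw [locN_iff] at *
  rw [map_inv₀]; exact hb.inv

theorem LocN.div {b c : k} {v : Place k} (hb : LocN E b v) (hc : LocN E c v) :
    LocN E (b / c) v := by
  rw [div_eq_mul_inv]; exact hb.mul hc.inv

/-- A global norm is a local norm. -/
theorem LocN.of_norm (e : E) (v : Place k) : LocN E (Algebra.norm k e) v := IsN.of_norm e

theorem LocN.of_pow (d : k) (v : Place k) : LocN E (d ^ finrank k E) v := by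
  rw [locN_iff, map_pow]; exact IsN.of_pow _

/-- If `E` embeds in `k_v` then everything is a local norm. -/
theorem loc_emb {v : Place k} (φ : E →ₐ[k] v.comp) (c : k) : LocN E c v := IsN.of_algHom φ _

/-- If the minimal polynomial of a generator has a root in `k_v` then everything is a local
norm. -/
theorem loc_root {v : Place k} (pb : PowerBasis k E) {α : v.comp}
    (hα : aeval α (minpoly k pb.gen) = 0) (c : k) : LocN E c v :=
  loc_emb (pb.lift α hα) c

/-- Openness of the local norms. -/
theorem loc_open (E : Type) [Field E] [Algebra k E] [FiniteDimensional k E]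
    [Algebra.IsSeparable k E] (v : Place k) : ∃ δ : ℝ, 0 < δ ∧
    (∀ u : v.comp, ‖u - 1‖ < δ → IsN k E v.comp u) ∧
      ∀ u : k, v.abv (u - 1) < δ → LocN E u v := by
  obtain ⟨x, hx⟩ := v.normalized.2.1
  have hx1 : 1 < v.abv x := by
    rw [hx]; exact one_lt_qq' v
  let _ : NontriviallyNormedField v.comp := NontriviallyNormedField.ofNormNeOne
    ⟨algebraMap k v.comp x, by
      rw [← norm_ne_zero_iff, norm_alg]; linarith, by rw [norm_alg]; exact hx1.ne'⟩
  obtain ⟨δ, hδ, h⟩ := isN_open (k := k) (E := E) (K := v.comp)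
  refine ⟨δ, hδ, h, fun u hu => h _ ?_⟩
  rw [← map_one (algebraMap k v.comp), ← map_sub, norm_alg]
  exact hu

/-- The local condition is open. -/
theorem loc_congr (E : Type) [Field E] [Algebra k E] [FiniteDimensional k E]
    [Algebra.IsSeparable k E] (v : Place k) : ∃ δ : ℝ, 0 < δ ∧
    ∀ b b' : k, b ≠ 0 → LocN E b v → v.abv (b' / b - 1) < δ → LocN E b' v := by
  obtain ⟨δ, hδ, -, h⟩ := loc_open E v
  refine ⟨δ, hδ, fun b b' hb0 hb hbb => ?_⟩
  have h1 := hb.mul (h _ hbb)
  rwa [mul_div_cancel₀ _ hb0] at h1

/-- Approximation by global norms suffices. -/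
theorem loc_of_apx {v : Place k} {b : k} (hb : b ≠ 0)
    (h : ∀ ε : ℝ, 0 < ε → ∃ e : E, v.abv (Algebra.norm k e - b) < ε) : LocN E b v := by
  obtain ⟨δ, hδ, h1⟩ := loc_congr (k := k) E v
  have hb' : 0 < v.abv b := v.abv.pos hb
  obtain ⟨e, he⟩ := h (min (v.abv b / 2) (δ * v.abv b / 2)) (by positivity)
  have he0 : v.abv (Algebra.norm k e) = v.abv b := by
    have h2 : v.abv (Algebra.norm k e - b) < v.abv b :=
      he.trans_le ((min_le_left _ _).trans (by linarith))
    have h3 : ‖algebraMap k v.comp (Algebra.norm k e - b)‖ < ‖algebraMap k v.comp b‖ := by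
      rw [norm_alg, norm_alg]; exact h2
    have h4 : algebraMap k v.comp (Algebra.norm k e) =
        algebraMap k v.comp (Algebra.norm k e - b) + algebraMap k v.comp b := by
      rw [← map_add, sub_add_cancel]
    rw [← norm_alg, h4, IsUltrametricDist.norm_add_eq_max_of_norm_ne_norm h3.ne, norm_alg,
      norm_alg, max_eq_right h2.le]
  have hn0 : Algebra.norm k e ≠ 0 := by
    intro h0
    rw [h0, map_zero] at he0
    exact hb'.ne he0
  refine h1 _ b hn0 (LocN.of_norm e v) ?_
  have h5 : b / Algebra.norm k e - 1 = -(Algebra.norm k e - b) / Algebra.norm k e := by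
    field_simp; ring
  rw [h5, map_div₀, v.abv.map_neg, he0, div_lt_iff₀ hb']
  have h6 := he.trans_le (min_le_right _ _)
  have h7 : δ * v.abv b / 2 < δ * v.abv b := by
    have := mul_pos hδ hb'
    linarith
  linarith

instance finite_quot (v : Place k) : Finite (Ov v ⧸ mv v) := v.normalized.1

/-- **The unramified places**: the minimal polynomial of a generator is integral and separable
over the ring of `v`, and the order of `b` is divisible by the degree. -/
theorem loc_unram {v : Place k} (pb : PowerBasis k E) {F : (Ov v)[X]} (hFm : F.Monic)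
    (hF : minpoly k pb.gen = F.map (Ov v).subtype) (hsep : F.Separable) {b d : k}
    (hd : d ≠ 0) (hbd : v.abv b = v.abv d ^ finrank k E) : LocN E b v := by
  have h1 : LocN E (b / d ^ finrank k E) v := by
    refine IsN.unram (K := v.comp) (mem_Ov v) (mem_mv v) pb hFm hF hsep ?_
    rw [norm_alg, map_div₀, map_pow, hbd, div_self (pow_ne_zero _ (v.abv.pos hd).ne')]
  have h2 := h1.mul (LocN.of_pow (E := E) d v)
  rwa [div_mul_cancel₀ _ (pow_ne_zero _ hd)] at h2

omit [FiniteDimensional k E] [Algebra.IsSeparable k E] in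
/-- Lifting an integral monic polynomial. -/
theorem exists_lift (v : Place k) {f : k[X]} (hf : f.Monic) (hint : ∀ i, v.abv (f.coeff i) ≤ 1) :
    ∃ F : (Ov v)[X], F.Monic ∧ F.natDegree = f.natDegree ∧ f = F.map (Ov v).subtype := by
  have h1 : f ∈ lifts (Ov v).subtype := by
    rw [lifts_iff_coeff_lifts]
    intro i
    exact ⟨⟨_, hint i⟩, rfl⟩
  obtain ⟨F, h2, h3, h4⟩ := lifts_and_natDegree_eq_and_monic h1 hf
  exact ⟨F, h4, h3, h2.symm⟩

omit [FiniteDimensional k E] [Algebra.IsSeparable k E] in
/-- The discriminant decides. -/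
theorem sep_of_discr {v : Place k} {f : k[X]} (hdeg : 0 < f.natDegree)
    (hd : v.abv f.discr = 1) {F : (Ov v)[X]} (hFm : F.Monic)
    (hF : f = F.map (Ov v).subtype) : F.Separable := by
  have hdeg' : F.natDegree = f.natDegree := by
    rw [hF, natDegree_map_eq_of_injective (Ov v).subtype_injective]
  have hdd : 0 < f.degree := natDegree_pos_iff_degree_pos.mp hdeg
  have hfm : f.Monic := by rw [hF]; exact hFm.map _
  have h2 := resultant_deriv hdd
  have h3 : resultant f (derivative f) f.natDegree (f.natDegree - 1) =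
      ((resultant F (derivative F) : Ov v) : k) := by
    rw [← H373.res_deg hFm (n := F.natDegree - 1) (natDegree_derivative_le F), hF,
      natDegree_map_eq_of_injective (Ov v).subtype_injective, derivative_map, resultant_map_map]
    rfl
  have h4 : v.abv ((resultant F (derivative F) : Ov v) : k) = 1 := by
    rw [← h3, h2, hfm.leadingCoeff, mul_one, map_mul, map_pow, v.abv.map_neg, map_one, one_pow,
      one_mul, hd]
  have h5 : IsUnit (resultant F (derivative F)) := by
    have hne : ((resultant F (derivative F) : Ov v) : k) ≠ 0 := by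
      intro h0; rw [h0, map_zero] at h4; exact zero_ne_one h4
    refine IsUnit.of_mul_eq_one ⟨((resultant F (derivative F) : Ov v) : k)⁻¹, ?_⟩
      (Subtype.ext (mul_inv_cancel₀ hne))
    change v.abv _ ≤ 1
    rw [map_inv₀, h4, inv_one]
  exact (isUnit_resultant_iff_isCoprime hFm).mp h5

omit [FiniteDimensional k E] [Algebra.IsSeparable k E] in
theorem minpoly_eq {p : ℕ} (hp : p.Prime) (hE : finrank k E = p) {f : k[X]} (hf : f.Monic)
    (hdeg : f.natDegree = p) {θ : E} (hθ : aeval θ f = 0) (hgen : ∀ c : k, algebraMap k E c ≠ θ) :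
    minpoly k θ = f := by
  haveI : FiniteDimensional k E := Module.finite_of_finrank_pos (by rw [hE]; exact hp.pos)
  have hint := Algebra.IsIntegral.isIntegral (R := k) θ
  have h1 : (minpoly k θ).natDegree ∣ p := by
    rw [← hE, ← IntermediateField.adjoin.finrank hint]
    exact Dvd.intro _ (finrank_mul_finrank k (IntermediateField.adjoin k {θ}) E)
  have h2 : (minpoly k θ).natDegree = p := by
    rcases (Nat.dvd_prime hp).mp h1 with h | h
    · obtain ⟨c, hc⟩ := minpoly.natDegree_eq_one_iff.mp h
      exact absurd hc (hgen c)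
    · exact h
  exact (eq_of_monic_of_dvd_of_natDegree_le (minpoly.monic hint) hf (minpoly.dvd k θ hθ)
    (by rw [h2, hdeg])).symm

omit [Algebra.IsSeparable k E] in
/-- A power basis from a generator. -/
theorem exists_pb {p : ℕ} (hp : p.Prime) (hE : finrank k E = p) {f : k[X]} (hf : f.Monic)
    (hdeg : f.natDegree = p) {θ : E} (hθ : aeval θ f = 0) (hgen : ∀ c : k, algebraMap k E c ≠ θ) :
    ∃ pb : PowerBasis k E, pb.gen = θ ∧ minpoly k pb.gen = f := by
  have hmp := minpoly_eq hp hE hf hdeg hθ hgen
  have hint := Algebra.IsIntegral.isIntegral (R := k) θ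
  have htop : IntermediateField.adjoin k {θ} = ⊤ := by
    apply IntermediateField.eq_of_le_of_finrank_eq le_top
    rw [IntermediateField.finrank_top', IntermediateField.adjoin.finrank hint, hmp, hdeg, hE]
  let pb := (IntermediateField.adjoin.powerBasis hint).map
    ((IntermediateField.equivOfEq htop).trans IntermediateField.topEquiv)
  have hpb : pb.gen = θ := by simp [pb]
  exact ⟨pb, hpb, by rw [hpb, hmp]⟩

end

/-- **The Hasse norm theorem for separable extensions of prime degree over global function
fields, with local criteria** (from the cyclic case). `f` is the minimal polynomial of the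
generator `θ`. -/
theorem hasse_norm_crit {p : ℕ} (hp : p.Prime) (H : CycN p) {k E : Type} [Field k] [GFF k]
    [Field E] [Algebra k E] [Algebra.IsSeparable k E] (hE : finrank k E = p) {f : k[X]}
    (hf : f.Monic) (hdeg : f.natDegree = p) {θ : E} (hθ : aeval θ f = 0)
    (hgen : ∀ c : k, algebraMap k E c ≠ θ) {b : k}
    (h : ∀ v : Place k, (∃ α : v.comp, aeval α f = 0) ∨
      ((∀ i, v.abv (f.coeff i) ≤ 1) ∧ v.abv f.discr = 1 ∧ ∃ d : k, d ≠ 0 ∧
        v.abv b = v.abv d ^ p) ∨ LocN E b v) : ∃ e : E, Algebra.norm k e = b := by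
  haveI : FiniteDimensional k E := Module.finite_of_finrank_pos (by rw [hE]; exact hp.pos)
  obtain ⟨pb, hpb, hmp⟩ := exists_pb hp hE hf hdeg hθ hgen
  refine norm_of_local_prime hp H hE b fun v => ?_
  rcases h v with ⟨α, hα⟩ | ⟨hint, hd, d, hd0, hbd⟩ | h
  · exact loc_root pb (by rwa [hmp]) b
  · obtain ⟨F, hFm, -, hF⟩ := exists_lift v hf hint
    exact loc_unram pb hFm (hmp.trans hF)
      (sep_of_discr (by rw [hdeg]; exact hp.pos) hd hFm hF) hd0 (by rw [hE]; exact hbd)
  · exact h

end Vale.Agent.P011.Hey.H63
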