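import Mathlib

/-! # Hensel's lemma in a complete ultrametric field and determinants near one (helper63) -/

namespace Vale.Agent.P011.Hey.H63

open Polynomial

set_option linter.style.haveILetI false
set_option linter.unusedSectionVars false

section

variable (K : Type*) [NormedField K] [IsUltrametricDist K]

/-- the closed unit ball -/
def OK : Subring K where
  carrier := {x | ‖x‖ ≤ 1}
  mul_mem' {a b} ha hb := by
    change ‖a * b‖ ≤ 1
    rw [norm_mul]; exact mul_le_one₀ ha (norm_nonneg _) hb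
  one_mem' := by change ‖(1 : K)‖ ≤ 1; rw [norm_one]
  add_mem' {a b} ha hb := (IsUltrametricDist.norm_add_le_max a b).trans (max_le ha hb)
  zero_mem' := by change ‖(0 : K)‖ ≤ 1; rw [norm_zero]; exact zero_le_one
  neg_mem' {a} ha := by change ‖-a‖ ≤ 1; rw [norm_neg]; exact ha

variable {K}

theorem mem_OK {x : K} : x ∈ OK K ↔ ‖x‖ ≤ 1 := Iff.rfl

theorem norm_le (x : OK K) : ‖(x : K)‖ ≤ 1 := x.2

/-- the difference of the values -/
theorem ev_sub (P : (OK K)[X]) (z w : OK K) : ∃ s : OK K,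
    P.eval z - P.eval w = (P.coeff 1 + s) * (z - w) ∧
      ∀ r : ℝ, ‖(z : K)‖ ≤ r → ‖(w : K)‖ ≤ r → r ≤ 1 → ‖(s : K)‖ ≤ r := by
  obtain ⟨q, hq⟩ := sub_dvd_eval_sub z w P.divX.divX
  have h1 : ∀ x : OK K, P.eval x = (P.divX.divX.eval x * x + P.coeff 1) * x + P.coeff 0 := by
    intro x
    conv_lhs => rw [← P.divX_mul_X_add, ← P.divX.divX_mul_X_add]
    simp [coeff_divX]
  refine ⟨P.divX.divX.eval z * (z + w) + w * w * q, ?_, ?_⟩
  · rw [h1 z, h1 w]
    linear_combination (w * w) * hq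
  · intro r hz hw hr
    push_cast
    have hr0 : 0 ≤ r := (norm_nonneg _).trans hz
    refine (IsUltrametricDist.norm_add_le_max _ _).trans (max_le ?_ ?_)
    · rw [norm_mul]
      have h2 : ‖(z : K) + w‖ ≤ r := (IsUltrametricDist.norm_add_le_max _ _).trans (max_le hz hw)
      calc _ ≤ 1 * r := mul_le_mul (norm_le _) h2 (norm_nonneg _) zero_le_one
        _ = r := one_mul r
    · rw [norm_mul, norm_mul]
      calc ‖(w : K)‖ * ‖(w : K)‖ * ‖(q : K)‖ ≤ r * 1 * 1 :=
            mul_le_mul (mul_le_mul hw (norm_le w) (norm_nonneg _) hr0) (norm_le q) (norm_nonneg _)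
              (by linarith)
        _ = r := by ring

/-- **Hensel's lemma** at the point `0`. -/
theorem hensel [CompleteSpace K] (P : (OK K)[X]) (h0 : ‖((P.coeff 0 : OK K) : K)‖ < 1)
    (h1 : ‖((P.coeff 1 : OK K) : K)‖ = 1) : ∃ z : OK K, ‖(z : K)‖ < 1 ∧ P.eval z = 0 := by
  set r : ℝ := ‖((P.coeff 0 : OK K) : K)‖ with hr
  have hr0 : 0 ≤ r := norm_nonneg _
  have ha0 : ((P.coeff 1 : OK K) : K) ≠ 0 := by
    rw [← norm_ne_zero_iff, h1]; exact one_ne_zero
  have hainv : ((P.coeff 1 : OK K) : K)⁻¹ ∈ OK K := by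
    rw [mem_OK, norm_inv, h1, inv_one]
  set b : OK K := ⟨_, hainv⟩ with hb
  have hab : P.coeff 1 * b = 1 := by
    ext; exact mul_inv_cancel₀ ha0
  -- the Newton map on the ball
  let B : Set K := Metric.closedBall 0 r
  have hB : ∀ z : K, z ∈ B ↔ ‖z‖ ≤ r := fun z => mem_closedBall_zero_iff
  have hBO : ∀ z ∈ B, z ∈ OK K := fun z hz => ((hB z).mp hz).trans h0.le
  let f : K → K := fun z => z - (P.map (OK K).subtype).eval z * (b : K)
  have hf : ∀ z : OK K, f z = ((z - P.eval z * b : OK K) : K) := by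
    intro z
    change (z : K) - (P.map (OK K).subtype).eval ((OK K).subtype z) * b = _
    rw [eval_map_apply]; rfl
  have hdiff : ∀ z ∈ B, ∀ w ∈ B, ‖f z - f w‖ ≤ r * ‖z - w‖ := by
    intro z hz w hw
    obtain ⟨s, hs1, hs2⟩ := ev_sub P ⟨z, hBO z hz⟩ ⟨w, hBO w hw⟩
    have hs3 := hs2 r ((hB z).mp hz) ((hB w).mp hw) h0.le
    have h3 : f z - f w = -(((s * b : OK K) : K)) * (z - w) := by
      have h4 := hf ⟨z, hBO z hz⟩
      have h5 := hf ⟨w, hBO w hw⟩
      simp only at h4 h5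
      rw [h4, h5, ← AddSubgroupClass.coe_sub]
      have h6 : ((⟨z, hBO z hz⟩ : OK K) - P.eval ⟨z, hBO z hz⟩ * b) -
          (⟨w, hBO w hw⟩ - P.eval ⟨w, hBO w hw⟩ * b) =
          -(s * b) * ((⟨z, hBO z hz⟩ : OK K) - ⟨w, hBO w hw⟩) := by
        linear_combination (-b) * hs1 - ((⟨z, hBO z hz⟩ : OK K) - ⟨w, hBO w hw⟩) * hab
      rw [h6]; rfl
    rw [h3, norm_mul, norm_neg]
    refine mul_le_mul_of_nonneg_right ?_ (norm_nonneg _)
    push_cast
    rw [norm_mul]
    calc ‖(s : K)‖ * ‖(b : K)‖ ≤ r * 1 := mul_le_mul hs3 (norm_le b) (norm_nonneg _) hr0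
      _ = r := mul_one r
  have h0B : (0 : K) ∈ B := by rw [hB, norm_zero]; exact hr0
  have hmaps : Set.MapsTo f B B := by
    intro z hz
    rw [hB]
    have h3 := hdiff z hz 0 h0B
    have h4 : ‖f 0‖ ≤ r := by
      have h5 := hf 0
      rw [ZeroMemClass.coe_zero] at h5
      rw [h5, ← coeff_zero_eq_eval_zero, zero_sub]
      push_cast
      rw [norm_neg, norm_mul]
      calc r * ‖(b : K)‖ ≤ r * 1 := mul_le_mul_of_nonneg_left (norm_le b) hr0
        _ = r := mul_one r
    have h5 : f z = (f z - f 0) + f 0 := by ring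
    rw [h5]
    refine (IsUltrametricDist.norm_add_le_max _ _).trans (max_le ?_ h4)
    rw [sub_zero] at h3
    refine h3.trans ?_
    calc r * ‖z‖ ≤ 1 * r := mul_le_mul h0.le ((hB z).mp hz) (norm_nonneg _) zero_le_one
      _ = r := one_mul r
  have hcomp : IsComplete B := Metric.isClosed_closedBall.isComplete
  have hcon : ContractingWith ⟨r, hr0⟩ (hmaps.restrict f B B) := by
    refine ⟨h0, LipschitzWith.of_dist_le_mul fun z w => ?_⟩
    rw [Subtype.dist_eq, Subtype.dist_eq, dist_eq_norm, dist_eq_norm]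
    exact hdiff z z.2 w w.2
  obtain ⟨y, hyB, hy, -⟩ := ContractingWith.exists_fixedPoint' hcomp hmaps hcon h0B
    (edist_ne_top _ _)
  refine ⟨⟨y, hBO y hyB⟩, ((hB y).mp hyB).trans_lt h0, ?_⟩
  have h3 : f y = y := hy
  have h4 := hf ⟨y, hBO y hyB⟩
  simp only at h4
  rw [h3] at h4
  have h5 : (⟨y, hBO y hyB⟩ : OK K) = ⟨y, hBO y hyB⟩ - P.eval ⟨y, hBO y hyB⟩ * b := Subtype.ext h4
  have h6 : P.eval ⟨y, hBO y hyB⟩ * b = 0 := by linear_combination h5
  calc P.eval ⟨y, hBO y hyB⟩ = (P.eval ⟨y, hBO y hyB⟩ * b) * P.coeff 1 := by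
        linear_combination (- P.eval ⟨y, hBO y hyB⟩) * hab
    _ = 0 := by rw [h6, zero_mul]

/-- Determinants `det (1 + z M)`, the trace of `M` a unit. -/
theorem exists_det [CompleteSpace K] {n : Type*} [Fintype n] [DecidableEq n]
    (M : Matrix n n (OK K)) (hM : ‖((M.trace : OK K) : K)‖ = 1) {u : K} (hu : ‖u - 1‖ < 1) :
    ∃ z : OK K, ((1 + z • M).det : K) = u := by
  have huO : u ∈ OK K := by
    have h : u = (u - 1) + 1 := by ring
    rw [h]
    exact (OK K).add_mem (mem_OK.mpr hu.le) (OK K).one_mem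
  let P : (OK K)[X] := (1 + (X : (OK K)[X]) • M.map C).det - C ⟨u, huO⟩
  have hev : ∀ z : OK K, P.eval z = (1 + z • M).det - ⟨u, huO⟩ := by
    intro z
    simp only [P, Polynomial.eval_sub, eval_C]
    rw [← coe_evalRingHom, RingHom.map_det]
    congr 2
    ext i j
    simp [Matrix.one_apply, apply_ite]
    exact mul_comm _ _
  obtain ⟨z, -, hz⟩ := hensel P (by
      rw [coeff_zero_eq_eval_zero, hev, zero_smul, add_zero, Matrix.det_one]
      push_cast
      rw [← norm_neg, neg_sub]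
      exact hu) (by
      simp only [P, coeff_sub, Matrix.coeff_det_one_add_X_smul_one, coeff_C_succ, sub_zero]
      exact hM)
  refine ⟨z, ?_⟩
  rw [hev, sub_eq_zero] at hz
  rw [hz]

end

end Vale.Agent.P011.Hey.H63
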