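import Vale.Agent.P011.Hey.H63.Loc
import Vale.Agent.P011.Hey.Final

/-! # The Hasse norm theorem for separable extensions of prime degree over global function fields
(helper63) -/

namespace Vale.Agent.P011.Hey.H63

open Polynomial Module TensorProduct
open Vale.Agent.P011.H738 Vale.Agent.P011.H271

set_option linter.style.haveILetI false

theorem cycN {p : ℕ} (hp : p.Prime) : CycN p :=
  H228.cycN_of_abhn hp (Hey.abhn' hp.two_le)

/-- **The Hasse norm theorem** for a separable extension of prime degree of a global function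
field, with local criteria. -/
theorem hasse_norm_crit' {p : ℕ} (hp : p.Prime) {k E : Type} [Field k] [GFF k]
    [Field E] [Algebra k E] [Algebra.IsSeparable k E] (hE : finrank k E = p) {f : k[X]}
    (hf : f.Monic) (hdeg : f.natDegree = p) {θ : E} (hθ : aeval θ f = 0)
    (hgen : ∀ c : k, algebraMap k E c ≠ θ) {b : k}
    (h : ∀ v : Place k, (∃ α : v.comp, aeval α f = 0) ∨
      ((∀ i, v.abv (f.coeff i) ≤ 1) ∧ v.abv f.discr = 1 ∧ ∃ d : k, d ≠ 0 ∧
        v.abv b = v.abv d ^ p) ∨ LocN E b v) : ∃ e : E, Algebra.norm k e = b :=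
  hasse_norm_crit hp (cycN hp) hE hf hdeg hθ hgen h

end Vale.Agent.P011.Hey.H63
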