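import Vale.Agent.P011.Hey.H63.Sk3
import Vale.Agent.P011.Hey.H63.HasseFF

/-! # The local condition of the Skolem equation at the places of an extension (helper63) -/

namespace Vale.Agent.P011.Hey.H63

open Module Polynomial TensorProduct
open Vale.Agent.P011.H738 Vale.Agent.P011.H271

set_option linter.style.haveILetI false
set_option linter.unusedSectionVars false

section bc

variable {k E K₁ K₂ : Type*} [Field k] [CommRing E] [Algebra k E] [FiniteDimensional k E]
  [Field K₁] [Field K₂] [Algebra k K₁] [Algebra k K₂]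

/-- The trace of `K ⊗ E` commutes with the extension of the field `K`. -/
theorem trace_map (φ : K₁ →ₐ[k] K₂) (x : K₁ ⊗[k] E) :
    Algebra.trace K₂ (K₂ ⊗[k] E) (Algebra.TensorProduct.map φ (AlgHom.id k E) x) =
      φ (Algebra.trace K₁ (K₁ ⊗[k] E) x) := by
  classical
  let b := Module.finBasis k E
  let b₁ := Algebra.TensorProduct.basis K₁ b
  let b₂ := Algebra.TensorProduct.basis K₂ b
  rw [Algebra.trace_eq_matrix_trace b₁, Algebra.trace_eq_matrix_trace b₂]
  have h : Algebra.leftMulMatrix b₂ (Algebra.TensorProduct.map φ (AlgHom.id k E) x) =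
      (Algebra.leftMulMatrix b₁ x).map φ := by
    induction x with
    | zero => simp
    | add x y hx hy => rw [map_add, map_add, hx, hy, map_add, Matrix.map_add _ (map_add φ)]
    | tmul a e =>
      ext i j
      rw [Matrix.map_apply, Algebra.leftMulMatrix_eq_repr_mul, Algebra.leftMulMatrix_eq_repr_mul,
        Algebra.TensorProduct.map_tmul, AlgHom.id_apply]
      simp only [b₁, b₂, Algebra.TensorProduct.basis_apply, Algebra.TensorProduct.tmul_mul_tmul,
        mul_one, Algebra.TensorProduct.basis_repr_tmul]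
      simp
  rw [h, Matrix.trace, Matrix.trace, map_sum]
  rfl

theorem trace_one_tmul (e : E) : Algebra.trace K₁ (K₁ ⊗[k] E) ((1 : K₁) ⊗ₜ[k] e) =
    algebraMap k K₁ (Algebra.trace k E e) := by
  classical
  let b := Module.finBasis k E
  let b₁ := Algebra.TensorProduct.basis K₁ b
  rw [Algebra.trace_eq_matrix_trace b₁, Algebra.trace_eq_matrix_trace b, Matrix.trace,
    Matrix.trace, map_sum]
  refine Finset.sum_congr rfl fun i _ => ?_
  rw [Matrix.diag_apply, Matrix.diag_apply, Algebra.leftMulMatrix_eq_repr_mul,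
    Algebra.leftMulMatrix_eq_repr_mul]
  simp only [b₁, Algebra.TensorProduct.basis_apply, Algebra.TensorProduct.tmul_mul_tmul,
        mul_one, Algebra.TensorProduct.basis_repr_tmul]
  simp

end bc

section up

variable {k F K K' : Type*} [Field k] [Field F] [Algebra k F] [FiniteDimensional k F]
  [Field K] [Algebra k K] [Field K'] [Algebra k K']

theorem SPt.map (φ : K →ₐ[k] K') {a g : k} (h : SPt k F K a g) : SPt k F K' a g := by
  obtain ⟨z, hz⟩ := h
  refine ⟨Algebra.TensorProduct.map φ (AlgHom.id k F) z, ?_⟩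
  rw [sg] at hz ⊢
  rw [norm_map, trace_map, ← φ.commutes a, ← φ.commutes g, ← map_add, ← map_mul, ← map_add, hz,
    map_zero]

variable {R M : Type*} [Field R] [Field M] [Algebra k R] [Algebra k M] [Algebra R M]
  [Algebra F M] [IsScalarTower k R M] [IsScalarTower k F M] [FiniteDimensional k R]

/-- A norm from `K ⊗ F` is a norm from `K ⊗ M`, `M = R ⊗ F`. -/
theorem IsN.up {p : ℕ} (hp : p.Prime) (hE : finrank k F = p) (hM : finrank R M = p)
    (hc : Nat.Coprime (finrank k R) p) [Algebra R K] [IsScalarTower k R K] {u : K}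
    (h : IsN k F K u) : IsN R M K u := by
  obtain ⟨x, hx⟩ := h
  let e₁ : R ⊗[k] F ≃ₐ[R] M := AlgEquiv.ofBijective toM (toM_bijective hp hE hM hc)
  let e₂ : K ⊗[R] (R ⊗[k] F) ≃ₐ[K] K ⊗[k] F := Algebra.TensorProduct.cancelBaseChange k R K K F
  let e₃ : K ⊗[R] (R ⊗[k] F) ≃ₐ[K] K ⊗[R] M :=
    Algebra.TensorProduct.congr AlgEquiv.refl e₁
  refine ⟨e₃ (e₂.symm x), ?_⟩
  rw [Algebra.norm_eq_of_algEquiv e₃, Algebra.norm_eq_of_algEquiv e₂.symm, hx]

end up

section

variable {k : Type} [Field k]

/-- The open local criterion. -/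
def GoodF (F : Type) [Field F] [Algebra k F] (v : Place k) (a g : k) : Prop :=
  SPt k F v.comp a g ∨ Crit2F F v a g

/-- The places where the minimal polynomial is good. -/
def Unr (P : k[X]) (v : Place k) : Prop :=
  ∃ F : (Ov v)[X], F.Monic ∧ P = F.map (Ov v).subtype ∧ F.Separable

/-- Almost all places are good. -/
theorem finite_not_unr [GFF k] {P : k[X]} (hP : P.Monic) (hdeg : 0 < P.natDegree)
    (hsep : P.Separable) : {v : Place k | ¬ Unr P v}.Finite := by
  have hd : P.discr ≠ 0 := by
    have h1 := resultant_deriv (natDegree_pos_iff_degree_pos.mp hdeg)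
    intro h0
    rw [h0, mul_zero] at h1
    have h2 : resultant P (derivative P) ≠ 0 := resultant_ne_zero _ _ hsep
    apply h2
    rw [← H373.res_deg hP (n := P.natDegree - 1) (natDegree_derivative_le P), h1]
  have hfin : ((⋃ i ∈ P.support, {v : Place k | v.abv (P.coeff i) ≠ 1}) ∪
      {v : Place k | v.abv P.discr ≠ 1}).Finite :=
    (Set.Finite.biUnion P.support.finite_toSet fun i hi =>
      place_finite (mem_support_iff.mp hi)).union (place_finite hd)
  refine hfin.subset fun v hv => ?_
  by_contra hcon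
  apply hv
  simp only [Set.mem_union, Set.mem_iUnion, not_or, not_exists, Set.mem_ofPred_eq, not_not] at hcon
  have hint : ∀ i, v.abv (P.coeff i) ≤ 1 := by
    intro i
    by_cases hi : i ∈ P.support
    · exact (hcon.1 i hi).le
    · rw [notMem_support_iff.mp hi, map_zero]; exact zero_le_one
  obtain ⟨F, hFm, -, hF⟩ := exists_lift v hP hint
  exact ⟨F, hFm, hF, sep_of_discr hdeg hcon.2 hFm hF⟩

/-- In odd characteristic two is a unit everywhere. -/
theorem abv_nat_eq_one [GFF k] (v : Place k) {m : ℕ} (hm : (m : k) ≠ 0) : v.abv (m : k) = 1 := by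
  obtain ⟨F₀, _, _, φ, -⟩ := GFF.out (k := k)
  obtain ⟨p, hp⟩ := CharP.exists k
  have hp0 : p ≠ 0 := by
    rintro rfl
    haveI : CharZero k := CharP.charP_to_charZero k
    obtain ⟨q, hq⟩ := CharP.exists F₀
    have hq0 : q ≠ 0 := by
      rintro rfl
      haveI : CharZero F₀ := CharP.charP_to_charZero F₀
      exact not_finite F₀
    have h1 : (φ.comp (algebraMap F₀ (RatFunc F₀))) ((q : ℕ) : F₀) = (q : k) := map_natCast _ _
    rw [CharP.cast_eq_zero, map_zero] at h1
    exact hq0 (by exact_mod_cast h1.symm)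
  haveI : NeZero p := ⟨hp0⟩
  haveI : CharP k p := hp
  have hprime : p.Prime := (CharP.char_is_prime_or_zero k p).resolve_right hp0
  haveI : Fact p.Prime := ⟨hprime⟩
  have hpm : ((m : ZMod p)) ≠ 0 := by
    intro h
    apply hm
    have h2 := congrArg (ZMod.castHom (dvd_refl p) k) h
    rwa [map_natCast, map_zero] at h2
  have h3 : ((m : ZMod p)) ^ (p - 1) = 1 := ZMod.pow_card_sub_one_eq_one hpm
  have h4 : (m : k) ^ (p - 1) = 1 := by
    have h5 := congrArg (ZMod.castHom (dvd_refl p) k) h3
    rwa [map_pow, map_natCast, map_one] at h5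
  have h6 : v.abv (m : k) ^ (p - 1) = 1 := by rw [← map_pow, h4, map_one]
  exact (pow_eq_one_iff_of_nonneg (v.abv.nonneg _) (by have := hprime.one_lt; omega)).mp h6

end

end Vale.Agent.P011.Hey.H63
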