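import Vale.Agent.P011.Hey.H63.Sk6

/-! # The local criterion is open; solvability near a local point (helper63) -/

namespace Vale.Agent.P011.Hey.H63

open Module Polynomial TensorProduct
open Vale.Agent.P011.H738 Vale.Agent.P011.H271

set_option linter.style.haveILetI false
set_option linter.unusedSectionVars false

section cubic

variable {K : Type*} [NormedField K] [IsUltrametricDist K] [CompleteSpace K]

/-- A cubic equation with a small constant term has a solution. -/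
theorem cubic_solve {c₁ c₂ c₃ ρ : K} (h1 : c₁ ≠ 0) (hρ : ρ ≠ 0) (hρ1 : ‖ρ‖ ≤ 1)
    (h2 : ‖c₂‖ * ‖ρ‖ ≤ ‖c₁‖) (h3 : ‖c₃‖ * ‖ρ‖ ≤ ‖c₁‖) {c₀ : K} (h0 : ‖c₀‖ < ‖ρ‖ * ‖c₁‖) :
    ∃ s : K, c₀ + c₁ * s + c₂ * s ^ 2 + c₃ * s ^ 3 = 0 := by
  have hc1 : 0 < ‖c₁‖ := norm_pos_iff.mpr h1
  have hρ0 : 0 < ‖ρ‖ := norm_pos_iff.mpr hρ
  have e0 : ‖c₀ / (ρ * c₁)‖ < 1 := by
    rw [norm_div, norm_mul, div_lt_one (mul_pos hρ0 hc1)]
    exact h0
  have e2 : ‖c₂ * ρ / c₁‖ ≤ 1 := by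
    rw [norm_div, norm_mul, div_le_one hc1]
    exact h2
  have e3 : ‖c₃ * ρ ^ 2 / c₁‖ ≤ 1 := by
    rw [norm_div, norm_mul, norm_pow, div_le_one hc1, pow_two, ← mul_assoc]
    calc ‖c₃‖ * ‖ρ‖ * ‖ρ‖ ≤ ‖c₁‖ * 1 :=
          mul_le_mul h3 hρ1 (norm_nonneg _) (norm_nonneg _)
      _ = ‖c₁‖ := mul_one _
  let P : (OK K)[X] := C ⟨c₀ / (ρ * c₁), mem_OK.mpr e0.le⟩ + X +
    C ⟨c₂ * ρ / c₁, mem_OK.mpr e2⟩ * X ^ 2 + C ⟨c₃ * ρ ^ 2 / c₁, mem_OK.mpr e3⟩ * X ^ 3
  obtain ⟨z, -, hz⟩ := hensel P (by simpa [P, coeff_X, coeff_C] using e0)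
    (by simp [P, coeff_X])
  refine ⟨ρ * (z : K), ?_⟩
  have hz' : c₀ / (ρ * c₁) + (z : K) + c₂ * ρ / c₁ * (z : K) ^ 2 +
      c₃ * ρ ^ 2 / c₁ * (z : K) ^ 3 = 0 := by
    have h4 := congrArg (fun x : OK K => (x : K)) hz
    simpa [P] using h4
  have h5 : c₀ + c₁ * (ρ * (z : K)) + c₂ * (ρ * (z : K)) ^ 2 + c₃ * (ρ * (z : K)) ^ 3 =
      (ρ * c₁) * (c₀ / (ρ * c₁) + (z : K) + c₂ * ρ / c₁ * (z : K) ^ 2 +
      c₃ * ρ ^ 2 / c₁ * (z : K) ^ 3) := by
    field_simp
  rw [h5, hz', mul_zero]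

end cubic

section pert

variable {K S : Type*} [Field K] [CommRing S] [Algebra K S]

/-- The norm of `1 + s y`. -/
theorem norm_one_add_smul (b : Basis (Fin 3) K S) (y : S) :
    ∃ e : K, ∀ s : K, Algebra.norm K (1 + algebraMap K S s * y) =
      1 + Algebra.trace K S y * s + e * s ^ 2 + Algebra.norm K y * s ^ 3 := by
  set M := Algebra.leftMulMatrix b y with hM
  refine ⟨M 0 0 * M 1 1 - M 0 1 * M 1 0 + (M 0 0 * M 2 2 - M 0 2 * M 2 0) +
    (M 1 1 * M 2 2 - M 1 2 * M 2 1), fun c => ?_⟩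
  rw [Algebra.norm_eq_matrix_det b, Algebra.norm_eq_matrix_det b, Algebra.trace_eq_matrix_trace b,
    map_add, map_mul, map_one, AlgHom.commutes, ← hM, Matrix.det_fin_three, Matrix.det_fin_three,
    Matrix.trace_fin_three]
  simp [Algebra.algebraMap_eq_smul_one, Matrix.smul_apply]
  ring

/-- The perturbation of a point of the equation `σ = 0`. -/
theorem exists_pert (b : Basis (Fin 3) K S) (hn : ∀ x : S, x ≠ 0 → Algebra.norm K x ≠ 0)
    (ht : ∃ t : S, Algebra.trace K S t = 1) {a₀ g₀ : K} (ha : a₀ ≠ 0)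
    (hH : g₀ ^ 2 + 4 * a₀ ≠ 0) {z : S} (hz : sg a₀ g₀ z = 0) :
    ∃ n τ n₁ τ₁ c₂ c₃ : K, n + a₀ * (τ + g₀) = 0 ∧ n₁ + a₀ * τ₁ ≠ 0 ∧ ∀ a g s : K,
      ∃ w : S, sg a g w = (n + a * (τ + g)) + (n₁ + a * τ₁) * s + c₂ * s ^ 2 + c₃ * s ^ 3 := by
  haveI : Nontrivial S := by
    haveI := b.repr.toEquiv.nontrivial
    exact inferInstance
  haveI : Module.Finite K S := Module.Finite.of_basis b
  have h3 : finrank K S = 3 := by rw [finrank_eq_card_basis b, Fintype.card_fin]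
  obtain ⟨t, ht⟩ := ht
  by_cases hz0 : z = 0
  · subst hz0
    have hg0 : g₀ = 0 := by
      rw [sg, Algebra.norm_zero, map_zero, zero_add, zero_add] at hz
      exact (mul_eq_zero.mp hz).resolve_left ha
    refine ⟨0, 0, 0, 1, 0, Algebra.norm K t, ?_, ?_, fun a g s => ⟨algebraMap K S s * t, ?_⟩⟩
    · rw [hg0]; ring
    · rw [zero_add, mul_one]; exact ha
    · rw [sg, map_mul, Algebra.norm_algebraMap, h3, ← Algebra.smul_def, map_smul, ht]
      simp only [smul_eq_mul]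
      ring
  · set n := Algebra.norm K z with hnz
    have hn0 : n ≠ 0 := hn z hz0
    set x : S := algebraMap K S n + algebraMap K S a₀ * z with hx
    have hx0 : x ≠ 0 := by
      intro h0
      have haS : IsUnit (algebraMap K S a₀) := (IsUnit.mk0 a₀ ha).map _
      obtain ⟨x₀, hx₀⟩ : ∃ x₀ : K, x₀ = -(n / a₀) := ⟨_, rfl⟩
      have h5 : z = algebraMap K S x₀ := by
        apply haS.mul_left_cancel
        rw [← map_mul, hx₀]
        have e1 : a₀ * -(n / a₀) = -n := by field_simp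
        rw [e1, map_neg]
        linear_combination h0
      have h6 : n = x₀ ^ 3 := by rw [hnz, h5, Algebra.norm_algebraMap, h3]
      have h7 : Algebra.trace K S z = 3 * x₀ := by
        rw [h5, Algebra.trace_algebraMap, h3, nsmul_eq_mul]; push_cast; ring
      rw [sg, ← hnz, h7] at hz
      have hx00 : x₀ ≠ 0 := by
        intro h
        rw [h] at h6
        exact hn0 (by rw [h6]; ring)
      have h8 : a₀ * x₀ = -n := by rw [hx₀]; field_simp
      have h9 : x₀ ^ 2 = -a₀ := by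
        apply mul_left_cancel₀ hx00
        linear_combination -h6 + h8
      have h10 : 2 * x₀ + g₀ = 0 := by
        have : a₀ * (2 * x₀ + g₀) = 0 := by linear_combination hz - h8
        exact (mul_eq_zero.mp this).resolve_left ha
      apply hH
      linear_combination (g₀ - 2 * x₀) * h10 + 4 * h9
    have hxu : IsUnit x := by
      have h4 := hn x hx0
      rw [Algebra.norm_apply] at h4
      have h5 : IsUnit (LinearMap.mulLeft K x) := by
        rw [LinearMap.isUnit_iff_isUnit_det]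
        exact IsUnit.mk0 _ h4
      have h6 : Function.Surjective (LinearMap.mulLeft K x) :=
        ((Module.End.isUnit_iff _).mp h5).2
      obtain ⟨y, hy⟩ := h6 1
      exact IsUnit.of_mul_eq_one y hy
    obtain ⟨u, hu⟩ := hxu
    set y : S := ((u⁻¹ : Sˣ) : S) * t with hy
    have hxy : x * y = t := by
      rw [hy, ← mul_assoc, ← hu, Units.mul_inv, one_mul]
    obtain ⟨e, he⟩ := norm_one_add_smul b y
    refine ⟨n, Algebra.trace K S z, n * Algebra.trace K S y, Algebra.trace K S (z * y), n * e,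
      n * Algebra.norm K y, hz, ?_, fun a g s => ⟨z * (1 + algebraMap K S s * y), ?_⟩⟩
    · have h4 : n * Algebra.trace K S y + a₀ * Algebra.trace K S (z * y) = 1 := by
        rw [← ht, ← hxy, hx, add_mul, map_add, ← Algebra.smul_def, map_smul, mul_assoc,
          ← Algebra.smul_def, map_smul]
        rfl
      rw [h4]
      exact one_ne_zero
    · have h4 : Algebra.trace K S (z * (1 + algebraMap K S s * y)) =
          Algebra.trace K S z + s * Algebra.trace K S (z * y) := by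
        have e1 : z * (1 + algebraMap K S s * y) = z + s • (z * y) := by
          rw [Algebra.smul_def]; ring
        rw [e1, map_add, map_smul]
        rfl
      rw [sg, map_mul, he, h4]
      ring

end pert

section

variable {k F : Type} [Field k] [Field F] [Algebra k F]

theorem norm_alg' (v : Place k) (x : k) : ‖algebraMap k v.comp x‖ = v.abv x := norm_alg v x

/-- **Local points are stable** when the discriminant is not zero. -/
theorem sPt_open [Algebra.IsSeparable k F] (hF : finrank k F = 3) (v : Place k)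
    (hno : ¬ Nonempty (F →ₐ[k] v.comp)) {a₀ g₀ : k} (ha : a₀ ≠ 0) (hH : g₀ ^ 2 + 4 * a₀ ≠ 0)
    (h : SPt k F v.comp a₀ g₀) : ∃ γ : ℝ, 0 < γ ∧ ∀ a g : k, v.abv (a - a₀) < γ →
      v.abv (g - g₀) < γ → SPt k F v.comp a g := by
  haveI : FiniteDimensional k F := Module.finite_of_finrank_pos (by omega)
  let ι := algebraMap k v.comp
  obtain ⟨z, hz⟩ := h
  let b : Basis (Fin 3) v.comp (v.comp ⊗[k] F) :=
    Algebra.TensorProduct.basis v.comp (Module.finBasisOfFinrankEq k F hF)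
  have hn : ∀ x : v.comp ⊗[k] F, x ≠ 0 → Algebra.norm v.comp x ≠ 0 := fun x hx h0 =>
    hno (point_of_norm_zero hF hx h0)
  have ht : ∃ t : v.comp ⊗[k] F, Algebra.trace v.comp _ t = 1 := by
    obtain ⟨t, ht⟩ := Algebra.trace_surjective k F 1
    exact ⟨1 ⊗ₜ t, by rw [trace_one_tmul, ht, map_one]⟩
  have ha' : ι a₀ ≠ 0 := (_root_.map_ne_zero _).mpr ha
  have hH' : ι g₀ ^ 2 + 4 * ι a₀ ≠ 0 := by
    have e : ι g₀ ^ 2 + 4 * ι a₀ = ι (g₀ ^ 2 + 4 * a₀) := by
      rw [map_add, map_pow, map_mul, map_ofNat]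
    rw [e]
    exact (_root_.map_ne_zero _).mpr hH
  obtain ⟨n, τ, n₁, τ₁, c₂, c₃, h0, h1, hw⟩ := exists_pert b hn ht ha' hH' hz
  set c₁ : v.comp := n₁ + ι a₀ * τ₁ with hc₁
  have hc1 : 0 < ‖c₁‖ := norm_pos_iff.mpr h1
  obtain ⟨ρ, hρ0, hρ1, hρC⟩ := exists_small v (max ‖c₂‖ ‖c₃‖ / ‖c₁‖)
  have hρ' : 0 < v.abv ρ := v.abv.pos hρ0
  have hρC' : max ‖c₂‖ ‖c₃‖ * v.abv ρ ≤ ‖c₁‖ := by
    rwa [mul_div_assoc', div_le_one hc1, mul_comm] at hρC
  have hcont : Continuous fun p : v.comp × v.comp =>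
      (n + p.1 * (τ + p.2), n₁ + p.1 * τ₁) := by fun_prop
  have hU : ∃ δ : ℝ, 0 < δ ∧ ∀ a g : v.comp, ‖a - ι a₀‖ < δ → ‖g - ι g₀‖ < δ →
      ‖n + a * (τ + g)‖ < v.abv ρ * ‖c₁‖ ∧ ‖(n₁ + a * τ₁) - c₁‖ < ‖c₁‖ := by
    have h4 := hcont.continuousAt (x := (ι a₀, ι g₀))
    rw [Metric.continuousAt_iff] at h4
    obtain ⟨δ, hδ, h5⟩ := h4 (min (v.abv ρ * ‖c₁‖) ‖c₁‖) (lt_min (mul_pos hρ' hc1) hc1)
    refine ⟨δ, hδ, fun a g ha hg => ?_⟩
    have h6 := h5 (x := (a, g)) (by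
      rw [Prod.dist_eq, dist_eq_norm, dist_eq_norm]
      exact max_lt ha hg)
    rw [Prod.dist_eq, dist_eq_norm, dist_eq_norm, max_lt_iff] at h6
    simp only at h6
    rw [h0, sub_zero] at h6
    exact ⟨h6.1.trans_le (min_le_left _ _), h6.2.trans_le (min_le_right _ _)⟩
  obtain ⟨δ, hδ, hU⟩ := hU
  refine ⟨δ, hδ, fun a g hag hgg => ?_⟩
  obtain ⟨h4, h5⟩ := hU (ι a) (ι g) (by rw [← map_sub, norm_alg']; exact hag)
    (by rw [← map_sub, norm_alg']; exact hgg)
  have h6 : ‖n₁ + ι a * τ₁‖ = ‖c₁‖ := by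
    have e : n₁ + ι a * τ₁ = c₁ + ((n₁ + ι a * τ₁) - c₁) := by ring
    rw [e, IsUltrametricDist.norm_add_eq_max_of_norm_ne_norm h5.ne', max_eq_left h5.le]
  obtain ⟨s, hs⟩ := cubic_solve (c₁ := n₁ + ι a * τ₁) (c₂ := c₂) (c₃ := c₃) (ρ := ι ρ)
    (c₀ := n + ι a * (τ + ι g))
    (by rw [← norm_pos_iff, h6]; exact hc1) ((_root_.map_ne_zero _).mpr hρ0)
    (by rw [norm_alg']; exact hρ1)
    (by
      rw [norm_alg', h6]
      exact (mul_le_mul_of_nonneg_right (le_max_left _ _) hρ'.le).trans hρC')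
    (by
      rw [norm_alg', h6]
      exact (mul_le_mul_of_nonneg_right (le_max_right _ _) hρ'.le).trans hρC')
    (by rw [norm_alg', h6]; exact h4)
  obtain ⟨w, hw⟩ := hw (ι a) (ι g) s
  exact ⟨w, hw.trans hs⟩

theorem abv_nat_le (v : Place k) (m : ℕ) : v.abv (m : k) ≤ 1 := by
  rw [← norm_alg', map_natCast]
  exact IsUltrametricDist.norm_natCast_le_one _ _

/-- The second criterion is stable. -/
theorem crit2F_open (v : Place k) {a₀ g₀ : k} (h : Crit2F F v a₀ g₀) : ∃ γ : ℝ, 0 < γ ∧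
    ∀ a g : k, v.abv (a - a₀) < γ → v.abv (g - g₀) < γ → Crit2F F v a g := by
  obtain ⟨ρ, hρ, h⟩ := h
  have hρ' : 0 < v.abv ρ := v.abv.pos hρ.1
  have hg0 : 0 < v.abv g₀ := by
    rcases (v.abv.nonneg g₀).eq_or_lt with h0 | h0
    · rw [map_mul, map_pow v.abv g₀, ← h0] at h
      have := v.abv.nonneg (g₀ ^ 2 + 4 * a₀)
      nlinarith
    · exact h0
  set r := v.abv (ρ ^ 2 * g₀ ^ 2) with hr
  have hr0 : 0 < r := v.abv.pos (mul_ne_zero (pow_ne_zero 2 hρ.1)
    (pow_ne_zero 2 (by rintro rfl; rw [map_zero] at hg0; exact lt_irrefl _ hg0)))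
  refine ⟨min r (min (r / v.abv g₀) (v.abv g₀)), lt_min hr0 (lt_min (div_pos hr0 hg0) hg0),
    fun a g ha hg => ⟨ρ, hρ, ?_⟩⟩
  have hg1 : v.abv (g - g₀) < v.abv g₀ := hg.trans_le ((min_le_right _ _).trans (min_le_right _ _))
  have hg2 : v.abv (g - g₀) * v.abv g₀ < r := by
    rw [← lt_div_iff₀ hg0]
    exact hg.trans_le ((min_le_right _ _).trans (min_le_left _ _))
  have ha1 : v.abv (a - a₀) < r := ha.trans_le (min_le_left _ _)
  have hgle : v.abv g ≤ v.abv g₀ := by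
    have e : g = (g - g₀) + g₀ := by ring
    rw [e]
    exact (v.nonarch _ _).trans (max_le hg1.le le_rfl)
  have hgg : v.abv g = v.abv g₀ := by
    refine le_antisymm hgle ?_
    by_contra hlt
    push Not at hlt
    have e : g₀ = g + -(g - g₀) := by ring
    have h1 : v.abv g₀ ≤ max (v.abv g) (v.abv (g - g₀)) := by
      conv_lhs => rw [e]
      refine (v.nonarch _ _).trans ?_
      rw [AbsoluteValue.map_neg]
    exact absurd h1 (not_le.mpr (max_lt hlt hg1))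
  have hr' : v.abv (ρ ^ 2 * g ^ 2) = r := by
    rw [hr, map_mul, map_mul, map_pow, map_pow, map_pow, hgg]
  rw [hr']
  have e : g ^ 2 + 4 * a = (g₀ ^ 2 + 4 * a₀) + ((g - g₀) * (g + g₀) + 4 * (a - a₀)) := by ring
  rw [e]
  refine (v.nonarch _ _).trans_lt (max_lt h ((v.nonarch _ _).trans_lt (max_lt ?_ ?_)))
  · rw [map_mul]
    refine (mul_le_mul_of_nonneg_left ?_ (v.abv.nonneg _)).trans_lt hg2
    exact (v.nonarch _ _).trans (max_le hgle le_rfl)
  · rw [map_mul]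
    have h4 : v.abv (4 : k) ≤ 1 := by
      have := abv_nat_le v 4
      exact_mod_cast this
    calc _ ≤ 1 * v.abv (a - a₀) := mul_le_mul_of_nonneg_right h4 (v.abv.nonneg _)
      _ = v.abv (a - a₀) := one_mul _
      _ < r := ha1

/-- **The open criterion holds in a neighbourhood.** -/
theorem goodF_open [Algebra.IsSeparable k F] (hF : finrank k F = 3) (h2 : (2 : k) ≠ 0)
    (v : Place k) (hno : ¬ Nonempty (F →ₐ[k] v.comp)) {a₀ g₀ : k} (ha : a₀ ≠ 0)
    (h : GoodF F v a₀ g₀) : ∃ γ : ℝ, 0 < γ ∧ ∀ a g : k, v.abv (a - a₀) < γ →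
      v.abv (g - g₀) < γ → GoodF F v a g := by
  haveI : FiniteDimensional k F := Module.finite_of_finrank_pos (by omega)
  by_cases hH : g₀ ^ 2 + 4 * a₀ = 0
  · have hg0 : g₀ ≠ 0 := by
      rintro rfl
      apply ha
      have h4 : (2 : k) * (2 * a₀) = 0 := by linear_combination hH
      exact (mul_eq_zero.mp ((mul_eq_zero.mp h4).resolve_left h2)).resolve_left h2
    have h4 : Crit2F F v a₀ g₀ := by
      obtain ⟨ρ, hρ⟩ := exists_UR (F := F) v
      refine ⟨ρ, hρ, ?_⟩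
      rw [hH, map_zero]
      exact v.abv.pos (mul_ne_zero (pow_ne_zero 2 hρ.1) (pow_ne_zero 2 hg0))
    obtain ⟨γ, hγ, h5⟩ := crit2F_open v h4
    exact ⟨γ, hγ, fun a g h6 h7 => Or.inr (h5 a g h6 h7)⟩
  · rcases h with h | h
    · obtain ⟨γ, hγ, h5⟩ := sPt_open hF v hno ha hH h
      exact ⟨γ, hγ, fun a g h6 h7 => Or.inl (h5 a g h6 h7)⟩
    · obtain ⟨γ, hγ, h5⟩ := crit2F_open v h
      exact ⟨γ, hγ, fun a g h6 h7 => Or.inr (h5 a g h6 h7)⟩

/-- The norm of the values of a polynomial is a polynomial. -/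
theorem exists_norm_eval [FiniteDimensional k F] (a : F[X]) : ∃ P : k[X], ∀ t : k,
    P.eval t = Algebra.norm k (a.eval (algebraMap k F t)) := by
  classical
  let b := Module.finBasis k F
  let L : F →+* Matrix (Fin (finrank k F)) (Fin (finrank k F)) k :=
    (Algebra.leftMulMatrix b : F →ₐ[k] _).toRingHom
  refine ⟨(matPolyEquiv.symm (a.map L)).det, fun t => ?_⟩
  rw [_root_.eval_det, AlgEquiv.apply_symm_apply, Algebra.norm_eq_matrix_det b]
  congr 1
  have h1 : (Matrix.scalar (Fin (finrank k F)) t : Matrix _ _ k) = L (algebraMap k F t) := by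
    change _ = Algebra.leftMulMatrix b (algebraMap k F t)
    rw [AlgHom.commutes]
    rfl
  rw [h1, eval_map_apply]
  rfl

theorem poly_cont (v : Place k) (P : k[X]) {ε : ℝ} (hε : 0 < ε) : ∃ γ : ℝ, 0 < γ ∧ ∀ t : k,
    v.abv t < γ → v.abv (P.eval t - P.eval 0) < ε := by
  have h1 := (P.map (algebraMap k v.comp)).continuous.continuousAt (x := 0)
  rw [Metric.continuousAt_iff] at h1
  obtain ⟨γ, hγ, h2⟩ := h1 ε hε
  refine ⟨γ, hγ, fun t ht => ?_⟩
  have h3 := h2 (x := algebraMap k v.comp t) (by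
    rw [dist_eq_norm, sub_zero, norm_alg']
    exact ht)
  have e0 : (P.map (algebraMap k v.comp)).eval 0 = algebraMap k v.comp (P.eval 0) := by
    conv_lhs => rw [← map_zero (algebraMap k v.comp), eval_map_apply]
  rwa [dist_eq_norm, eval_map_apply, e0, ← map_sub, norm_alg'] at h3

/-- Near a value of the parameter with a good local point the criterion holds. -/
theorem goodF_near [Algebra.IsSeparable k F] (hF : finrank k F = 3) (h2 : (2 : k) ≠ 0)
    (v : Place k) (a : F[X]) (g : k[X]) (ha : a.eval 0 ≠ 0)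
    (h : GoodF F v (Algebra.norm k (a.eval 0)) (g.eval 0))
    (hno : ¬ Nonempty (F →ₐ[k] v.comp)) : ∃ γ : ℝ, 0 < γ ∧ ∀ t : k, v.abv t < γ →
      GoodF F v (Algebra.norm k (a.eval (algebraMap k F t))) (g.eval t) := by
  haveI : FiniteDimensional k F := Module.finite_of_finrank_pos (by omega)
  have hNA : Algebra.norm k (a.eval 0) ≠ 0 := by rwa [Ne, Algebra.norm_eq_zero_iff]
  obtain ⟨δ, hδ, h3⟩ := goodF_open hF h2 v hno hNA h
  obtain ⟨P, hP⟩ := exists_norm_eval (k := k) a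
  obtain ⟨γ₁, hγ₁, h4⟩ := poly_cont v P hδ
  obtain ⟨γ₂, hγ₂, h5⟩ := poly_cont v g hδ
  refine ⟨min γ₁ γ₂, lt_min hγ₁ hγ₂, fun t ht => h3 _ _ ?_ ?_⟩
  · have h6 := h4 t (ht.trans_le (min_le_left _ _))
    rwa [hP, hP, map_zero] at h6
  · exact h5 t (ht.trans_le (min_le_right _ _))

/-- The local condition at a point. -/
def LpF (F : Type) [Field F] [Algebra k F] (v : Place k) (A : F) (G : k) : Prop :=
  (∃ f : v.comp ⊗[k] F, Algebra.norm v.comp f +
    Algebra.trace v.comp (v.comp ⊗[k] F) (((1 : v.comp) ⊗ₜ[k] A) * f) + algebraMap k v.comp G = 0) ∨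
  Crit2F F v (Algebra.norm k A) G

theorem LpF.good (hF : finrank k F = 3) {v : Place k} {A : F} {G : k} (h : LpF F v A G) :
    GoodF F v (Algebra.norm k A) G := by
  rcases h with h | h
  · exact Or.inl (sPt_of_point hF h)
  · exact Or.inr h

/-- **The parameter near zero.** -/
theorem hnearF [Algebra.IsSeparable k F] (hF : finrank k F = 3) (h2 : (2 : k) ≠ 0)
    (v : Place k) (a : F[X]) (g : k[X]) (_ : a.natDegree ≤ 4) (_ : g.natDegree ≤ 6)
    (ha : a.eval 0 ≠ 0) (h : LpF F v (a.eval 0) (g.eval 0))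
    (hno : ¬ Nonempty (F →ₐ[k] v.comp)) : ∃ γ : ℝ, 0 < γ ∧ ∀ t : k, v.abv t < γ →
      ∃ c : k, c ≠ 0 ∧
        GoodF F v (c ^ 6 * Algebra.norm k (a.eval (algebraMap k F t))) (c ^ 3 * g.eval t) := by
  obtain ⟨γ, hγ, h3⟩ := goodF_near hF h2 v a g ha (h.good hF) hno
  refine ⟨γ, hγ, fun t ht => ⟨1, one_ne_zero, ?_⟩⟩
  rw [one_pow, one_mul, one_pow, one_mul]
  exact h3 t ht

/-- **The parameter near infinity.** -/
theorem hfarF [Algebra.IsSeparable k F] (hF : finrank k F = 3) (h2 : (2 : k) ≠ 0)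
    (v : Place k) (a : F[X]) (g : k[X]) (ha4 : a.natDegree ≤ 4) (hg6 : g.natDegree ≤ 6)
    (ha : a.coeff 4 ≠ 0) (h : LpF F v (a.coeff 4) (g.coeff 6))
    (hno : ¬ Nonempty (F →ₐ[k] v.comp)) : ∃ γ : ℝ, ∀ t : k, γ < v.abv t →
      ∃ c : k, c ≠ 0 ∧
        GoodF F v (c ^ 6 * Algebra.norm k (a.eval (algebraMap k F t))) (c ^ 3 * g.eval t) := by
  haveI : FiniteDimensional k F := Module.finite_of_finrank_pos (by omega)
  have ea : (reflect 4 a).eval 0 = a.coeff 4 := by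
    rw [← coeff_zero_eq_eval_zero, coeff_reflect]; rfl
  have eg : (reflect 6 g).eval 0 = g.coeff 6 := by
    rw [← coeff_zero_eq_eval_zero, coeff_reflect]; rfl
  obtain ⟨γ, hγ, h3⟩ := goodF_near hF h2 v (reflect 4 a) (reflect 6 g) (by rw [ea]; exact ha)
    (by rw [ea, eg]; exact h.good hF) hno
  refine ⟨γ⁻¹, fun t ht => ?_⟩
  have ht0 : 0 < v.abv t := (inv_pos.mpr hγ).trans ht
  have htne : t ≠ 0 := by rintro rfl; rw [map_zero] at ht0; exact lt_irrefl _ ht0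
  have htF : algebraMap k F t ≠ 0 := (_root_.map_ne_zero _).mpr htne
  have h4 := h3 t⁻¹ (by rw [map_inv₀]; exact inv_lt_of_inv_lt₀ hγ ht)
  refine ⟨(t⁻¹) ^ 2, pow_ne_zero 2 (inv_ne_zero htne), ?_⟩
  have e1 : (reflect 4 a).eval (algebraMap k F t⁻¹) * algebraMap k F t ^ 4 =
      a.eval (algebraMap k F t) := by
    letI : Invertible (algebraMap k F t) := invertibleOfNonzero htF
    have h5 := eval₂_reflect_mul_pow (RingHom.id F) (algebraMap k F t) 4 a ha4
    rw [invOf_eq_inv] at h5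
    rw [map_inv₀]
    exact h5
  have e2 : (reflect 6 g).eval t⁻¹ * t ^ 6 = g.eval t := by
    letI : Invertible t := invertibleOfNonzero htne
    have h5 := eval₂_reflect_mul_pow (RingHom.id k) t 6 g hg6
    rw [invOf_eq_inv] at h5
    exact h5
  have e3 : ((t⁻¹) ^ 2) ^ 6 * Algebra.norm k (a.eval (algebraMap k F t)) =
      Algebra.norm k ((reflect 4 a).eval (algebraMap k F t⁻¹)) := by
    rw [← e1, map_mul, map_pow, Algebra.norm_algebraMap, hF]
    field_simp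
  have e4 : ((t⁻¹) ^ 2) ^ 3 * g.eval t = (reflect 6 g).eval t⁻¹ := by
    rw [← e2]
    field_simp
  rw [e3, e4]
  exact h4

end

end Vale.Agent.P011.Hey.H63
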