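import Vale.Agent.P011.Hey.H63.Sk2
import Vale.Agent.P011.Hey.H63.Loc

/-! # A uniform radius for the norms near one; small discriminants (helper63) -/

namespace Vale.Agent.P011.Hey.H63

open Module Polynomial TensorProduct
open Vale.Agent.P011.H738 Vale.Agent.P011.H271

set_option linter.style.haveILetI false
set_option linter.unusedSectionVars false

section

variable {k : Type} [Field k]

/-- The radius `ρ` works for `F` over every complete extension of the completion at `v`. -/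
def UR (F : Type) [Field F] [Algebra k F] (v : Place k) (ρ : k) : Prop :=
  ρ ≠ 0 ∧ v.abv ρ ≤ 1 ∧ ∀ (K : Type) [NormedField K] [IsUltrametricDist K] [CompleteSpace K]
    [Algebra k K] (s : ℝ), 0 < s → (∀ x : k, ‖algebraMap k K x‖ = v.abv x ^ s) →
    ∀ u : K, ‖u - 1‖ < ‖algebraMap k K ρ‖ → IsN k F K u

variable {F : Type} [Field F] [Algebra k F] [FiniteDimensional k F] [Algebra.IsSeparable k F]

theorem exists_small (v : Place k) (C : ℝ) : ∃ ρ : k, ρ ≠ 0 ∧ v.abv ρ ≤ 1 ∧ v.abv ρ * C ≤ 1 := by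
  obtain ⟨x, hx⟩ := v.normalized.2.1
  have hq : 1 < v.abv x := by rw [hx]; exact one_lt_qq' v
  have hx0 : x ≠ 0 := by rintro rfl; rw [map_zero] at hq; linarith
  obtain ⟨n, hn⟩ := pow_unbounded_of_one_lt C hq
  have hpos : 0 < v.abv x ^ n := pow_pos (v.abv.pos hx0) n
  refine ⟨(x ^ n)⁻¹, inv_ne_zero (pow_ne_zero n hx0), ?_, ?_⟩
  · rw [map_inv₀, map_pow]
    exact inv_le_one_of_one_le₀ (one_le_pow₀ hq.le)
  · rw [map_inv₀, map_pow, inv_mul_le_iff₀ hpos, mul_one]
    exact hn.le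

theorem exists_UR (v : Place k) : ∃ ρ : k, UR F v ρ := by
  classical
  obtain ⟨t, ht⟩ := Algebra.trace_surjective k F 1
  let b := Module.finBasis k F
  let M := Algebra.leftMulMatrix b t
  let P : k[X] := (1 + (X : k[X]) • M.map C).det
  have hev : ∀ {K : Type} [Field K] [Algebra k K] (z : K), aeval z P =
      (1 + z • M.map (algebraMap k K)).det := by
    intro K _ _ z
    simp only [P]
    rw [AlgHom.map_det]
    congr 1
    ext i j
    simp [Matrix.one_apply, apply_ite]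
    exact mul_comm _ _
  have htr : M.trace = 1 := by rw [← ht, Algebra.trace_eq_matrix_trace b]
  have hP1 : P.coeff 1 = 1 := by
    simp only [P, Matrix.coeff_det_one_add_X_smul_one, htr]
  have hP0 : P.coeff 0 = 1 := by
    have h1 := hev (K := k) 0
    rw [zero_smul, add_zero, Matrix.det_one, coe_aeval_eq_eval, ← coeff_zero_eq_eval_zero] at h1
    exact h1
  -- a bound for the coefficients
  obtain ⟨C0, hC0⟩ : ∃ C0 : ℝ, ∀ i, v.abv (P.coeff i) ≤ C0 := by
    refine ⟨∑ i ∈ Finset.range (P.natDegree + 1), v.abv (P.coeff i), fun i => ?_⟩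
    by_cases hi : i ≤ P.natDegree
    · exact Finset.single_le_sum (f := fun i => v.abv (P.coeff i)) (fun j _ => v.abv.nonneg _)
        (Finset.mem_range.mpr (by omega))
    · rw [coeff_eq_zero_of_natDegree_lt (by omega), map_zero]
      exact Finset.sum_nonneg fun j _ => v.abv.nonneg _
  obtain ⟨ρ, hρ0, hρ1, hρC⟩ := exists_small v C0
  refine ⟨ρ, hρ0, hρ1, ?_⟩
  intro K _ _ _ _ s hs hnorm u hu
  set ρK := algebraMap k K ρ with hρK
  have hρK0 : ρK ≠ 0 := (_root_.map_ne_zero _).mpr hρ0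
  -- the polynomial
  let S : k[X] := X * (P.divX.comp (C ρ * X))
  have hScoeff : ∀ i, v.abv (S.coeff i) ≤ 1 := by
    intro i
    rcases i with _ | i
    · simp [S]
    · rw [coeff_X_mul, comp_C_mul_X_coeff, coeff_divX]
      rcases i with _ | i
      · rw [zero_add, hP1, pow_zero, mul_one, map_one]
      · rw [map_mul, map_pow, pow_succ, mul_comm, mul_assoc]
        have h1 : v.abv ρ ^ i ≤ 1 := pow_le_one₀ (v.abv.nonneg _) hρ1
        have h2 : v.abv ρ * v.abv (P.coeff (i + 1 + 1)) ≤ 1 :=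
          (mul_le_mul_of_nonneg_left (hC0 _) (v.abv.nonneg _)).trans hρC
        exact mul_le_one₀ h1 (mul_nonneg (v.abv.nonneg _) (v.abv.nonneg _)) h2
  have hS1 : S.coeff 1 = 1 := by
    rw [show (1 : ℕ) = 0 + 1 from rfl, coeff_X_mul, comp_C_mul_X_coeff, coeff_divX, zero_add, hP1,
      pow_zero, mul_one]
  have hS0 : S.coeff 0 = 0 := by simp [S]
  have hPS : ∀ z : K, aeval (ρK * z) P = 1 + ρK * aeval z S := by
    intro z
    have h1 : P = X * P.divX + C (P.coeff 0) := by rw [mul_comm]; exact P.divX_mul_X_add.symm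
    have h2 : aeval (ρK * z) P = (ρK * z) * aeval (ρK * z) P.divX + 1 := by
      conv_lhs => rw [h1, hP0]
      simp only [map_add, map_mul, aeval_X, map_one]
    rw [h2]
    simp only [S, map_mul, aeval_X, aeval_comp, aeval_C]
    rw [← hρK]
    ring
  -- Hensel
  let u' : K := (u - 1) / ρK
  have hu' : ‖u'‖ < 1 := by
    have hpos : 0 < ‖ρK‖ := norm_pos_iff.mpr hρK0
    simp only [u']
    rw [norm_div, div_lt_one hpos]
    exact hu
  have hmem : ∀ i, (S.map (algebraMap k K)).coeff i ∈ OK K := by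
    intro i
    rw [coeff_map, mem_OK, hnorm]
    exact Real.rpow_le_one (v.abv.nonneg _) (hScoeff i) hs.le
  obtain ⟨R, hR⟩ : ∃ R : (OK K)[X], R.map (OK K).subtype = S.map (algebraMap k K) := by
    have h1 : S.map (algebraMap k K) ∈ lifts (OK K).subtype := by
      rw [lifts_iff_coeff_lifts]
      intro i
      exact ⟨⟨_, hmem i⟩, rfl⟩
    exact h1
  have hRc : ∀ i, ((R.coeff i : OK K) : K) = algebraMap k K (S.coeff i) := by
    intro i
    rw [← coeff_map, ← hR, coeff_map]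
    rfl
  have hRe : ∀ z : OK K, ((R.eval z : OK K) : K) = aeval (z : K) S := by
    intro z
    rw [← aeval_map_algebraMap K, ← hR, coe_aeval_eq_eval]
    change (OK K).subtype (R.eval z) = _
    rw [← eval_map_apply]
    rfl
  obtain ⟨z, -, hz⟩ := hensel (R - C ⟨u', mem_OK.mpr hu'.le⟩) (by
      rw [coeff_sub, coeff_C_zero]
      push_cast
      rw [hRc, hS0, map_zero, zero_sub, norm_neg]
      exact hu') (by
      rw [coeff_sub, coeff_C_succ, sub_zero, hRc, hS1, map_one, norm_one])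
  rw [Polynomial.eval_sub, eval_C, sub_eq_zero] at hz
  have hz' : aeval (z : K) S = u' := by rw [← hRe, hz]
  refine ⟨1 + (ρK * (z : K)) • ((1 : K) ⊗ₜ[k] t), ?_⟩
  rw [norm_one_add b, ← hev, hPS, hz']
  simp only [u']
  field_simp
  ring

/-- the open criterion: the discriminant is small. Here `a` is `N(A)`. -/
def Crit2F (F : Type) [Field F] [Algebra k F] (v : Place k) (a g : k) : Prop :=
  ∃ ρ : k, UR F v ρ ∧ v.abv (g ^ 2 + 4 * a) < v.abv (ρ ^ 2 * g ^ 2)

theorem crit2F_of (v : Place k) : ∃ δ : ℝ, 0 < δ ∧ ∀ a g : k,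
    v.abv (g ^ 2 + 4 * a) < δ * v.abv (g ^ 2) → Crit2F F v a g := by
  obtain ⟨ρ, hρ⟩ := exists_UR (F := F) v
  refine ⟨v.abv (ρ ^ 2), v.abv.pos (pow_ne_zero 2 hρ.1), fun a g h => ⟨ρ, hρ, ?_⟩⟩
  rwa [map_mul]

/-- Away from the characteristic three the radius is one. -/
theorem UR.one (h3 : finrank k F = 3) (hk : (3 : k) ≠ 0) (v : Place k) (hv : v.abv 3 = 1) :
    UR F v 1 := by
  refine ⟨one_ne_zero, (map_one _).le, ?_⟩
  intro K _ _ _ _ s hs hnorm u hu
  rw [map_one, norm_one] at hu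
  let b := Module.finBasis k F
  refine IsN.of_int b (algebraMap k F (1 / 3)) (fun i j => ?_) ?_ hu
  · rw [AlgHom.commutes, Matrix.algebraMap_matrix_apply]
    split_ifs
    · rw [Algebra.algebraMap_self, RingHom.id_apply, hnorm, map_div₀, map_one, hv, div_one,
        Real.one_rpow]
    · rw [map_zero, norm_zero]; exact zero_le_one
  · rw [Algebra.trace_algebraMap, h3, nsmul_eq_mul]
    have e : ((3 : ℕ) : k) * (1 / 3) = 1 := by
      push_cast
      exact mul_one_div_cancel hk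
    rw [e, map_one, norm_one]

/-- A small discriminant makes the roots norms. -/
theorem isN_of_crit2 (h3 : finrank k F = 3) {v : Place k} {A : F} (hA : A ≠ 0) {G : k}
    (h : Crit2F F v (Algebra.norm k A) G) {K : Type} [NormedField K] [IsUltrametricDist K]
    [CompleteSpace K] [Algebra k K] {s : ℝ} (hs : 0 < s)
    (hnorm : ∀ x : k, ‖algebraMap k K x‖ = v.abv x ^ s) (h2 : ‖(2 : K)‖ = 1) {ω ω' : K}
    (hsum : ω + ω' = -algebraMap k K G)
    (hp : ω * ω' = -algebraMap k K (Algebra.norm k A)) : IsN k F K ω := by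
  obtain ⟨ρ, hρ, h4⟩ := h
  have hNA : Algebra.norm k A ≠ 0 := by rwa [Ne, Algebra.norm_eq_zero_iff]
  set a : K := algebraMap k K (Algebra.norm k A) with ha
  set g : K := algebraMap k K G with hg
  set r : K := algebraMap k K ρ with hr
  have ha0 : a ≠ 0 := (_root_.map_ne_zero _).mpr hNA
  have hω'0 : ω' ≠ 0 := by
    rintro rfl
    rw [mul_zero, eq_comm, neg_eq_zero] at hp
    exact ha0 hp
  have hr1 : ‖r‖ ≤ 1 := by
    rw [hr, hnorm]; exact Real.rpow_le_one (v.abv.nonneg _) hρ.2.1 hs.le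
  have h5 : ‖ω - ω'‖ ^ 2 < (‖r‖ * ‖g‖) ^ 2 := by
    have e1 : (ω - ω') ^ 2 = algebraMap k K (G ^ 2 + 4 * Algebra.norm k A) := by
      rw [map_add, map_mul, map_pow, map_ofNat, ← hg, ← ha]
      have e2 : g = -(ω + ω') := by rw [hsum, neg_neg]
      rw [e2]; linear_combination (-4 : K) * hp
    rw [← norm_pow, e1, ← norm_mul, ← norm_pow, hr, hg, ← map_mul, ← map_pow, hnorm, hnorm,
      mul_pow]
    exact Real.rpow_lt_rpow (v.abv.nonneg _) h4 hs
  have h6 : ‖ω - ω'‖ < ‖r‖ * ‖g‖ := lt_of_pow_lt_pow_left₀ 2 (by positivity) h5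
  have h7 : ‖ω - ω'‖ < ‖g‖ := by
    refine h6.trans_le ?_
    calc ‖r‖ * ‖g‖ ≤ 1 * ‖g‖ := mul_le_mul_of_nonneg_right hr1 (norm_nonneg _)
      _ = ‖g‖ := one_mul _
  have h8 : ‖ω'‖ = ‖g‖ := by
    have e1 : 2 * ω' = -(ω - ω') + -g := by linear_combination hsum
    have e2 : ‖2 * ω'‖ = ‖g‖ := by
      rw [e1, IsUltrametricDist.norm_add_eq_max_of_norm_ne_norm (by
        rw [norm_neg, norm_neg]; exact h7.ne), norm_neg, norm_neg, max_eq_right h7.le]
    rwa [norm_mul, h2, one_mul] at e2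
  refine isN_of_quot h3 hA hp (hρ.2.2 K s hs hnorm _ ?_)
  have e1 : ω / ω' - 1 = (ω - ω') / ω' := by field_simp
  rw [e1, norm_div, div_lt_iff₀ (norm_pos_iff.mpr hω'0), h8]
  exact h6

end

end Vale.Agent.P011.Hey.H63
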