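import Vale.Agent.P011.Hey.H63.Hensel
import Vale.Agent.P011.Hey.H63.NormBC
import Mathlib.RingTheory.Polynomial.Resultant.Basic

/-! # Norms from `K ⊗ E`, `K` a complete ultrametric field (helper63) -/

namespace Vale.Agent.P011.Hey.H63

open Polynomial Module TensorProduct

set_option linter.style.haveILetI false
set_option linter.unusedSectionVars false

section alg

variable {k E K : Type*} [Field k] [Field E] [Algebra k E] [FiniteDimensional k E] [Field K]
  [Algebra k K]

variable (k E K) in
/-- The elements of `K` which are norms from `K ⊗ E`. -/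
def IsN (u : K) : Prop := ∃ x : K ⊗[k] E, Algebra.norm K x = u

theorem IsN.mul {u u' : K} (h : IsN k E K u) (h' : IsN k E K u') : IsN k E K (u * u') := by
  obtain ⟨x, rfl⟩ := h
  obtain ⟨y, rfl⟩ := h'
  exact ⟨x * y, map_mul _ _ _⟩

theorem IsN.one : IsN k E K (1 : K) := ⟨1, map_one _⟩

theorem IsN.inv {u : K} (h : IsN k E K u) : IsN k E K u⁻¹ := by
  obtain ⟨x, rfl⟩ := h
  by_cases h0 : Algebra.norm K x = 0
  · rw [h0, inv_zero]
    refine ⟨0, ?_⟩
    haveI : Nontrivial (K ⊗[k] E) := inferInstance
    exact Algebra.norm_zero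
  · have h1 : IsUnit (LinearMap.det (LinearMap.mulLeft K x)) := by
      rw [isUnit_iff_ne_zero]; exact h0
    have h2 : Function.Surjective (LinearMap.mulLeft K x) := by
      have := (LinearMap.isUnit_iff_isUnit_det _).mpr h1
      rw [Module.End.isUnit_iff] at this
      exact this.2
    obtain ⟨y, hy⟩ := h2 1
    have hy' : x * y = 1 := hy
    refine ⟨y, ?_⟩
    have h3 : Algebra.norm K x * Algebra.norm K y = 1 := by rw [← map_mul, hy', map_one]
    exact eq_inv_of_mul_eq_one_right h3

theorem IsN.div {u u' : K} (h : IsN k E K u) (h' : IsN k E K u') : IsN k E K (u / u') := by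
  rw [div_eq_mul_inv]; exact h.mul h'.inv

theorem IsN.of_norm (e : E) : IsN k E K (algebraMap k K (Algebra.norm k e)) :=
  ⟨_, norm_one_tmul e⟩

theorem IsN.of_pow (d : K) : IsN k E K (d ^ finrank k E) := by
  refine ⟨algebraMap K _ d, ?_⟩
  rw [Algebra.norm_algebraMap, Module.finrank_baseChange]

/-- If `E` embeds in `K` then every element of `K` is a norm from `K ⊗ E`. -/
theorem IsN.of_algHom [Algebra.IsSeparable k E] (φ : E →ₐ[k] K) (u : K) : IsN k E K u := by
  classical
  obtain ⟨θ, hθ⟩ := Field.exists_primitive_element k E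
  have hi : IsIntegral k θ := Algebra.IsIntegral.isIntegral θ
  set f : k[X] := minpoly k θ with hf
  set α : K := φ θ with hα
  set F : K[X] := f.map (algebraMap k K) with hF
  have hroot : F.IsRoot α := by
    rw [IsRoot.def, hF, eval_map_algebraMap, hα, aeval_algHom_apply, hf, minpoly.aeval, map_zero]
  obtain ⟨g, hg⟩ := dvd_iff_isRoot.mpr hroot
  have hsep0 : f.Separable := Algebra.IsSeparable.isSeparable k θ
  have hsep : F.Separable := hsep0.map
  have hgα : g.eval α ≠ 0 := by
    intro h0
    have h1 : IsCoprime (X - C α) g := by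
      rw [hg] at hsep
      exact hsep.isCoprime
    obtain ⟨a, b, hab⟩ := h1
    have h2 := congrArg (eval α) hab
    simp [h0] at h2
  set t : K ⊗[k] E := 1 ⊗ₜ θ with ht
  set ε : K ⊗[k] E := algebraMap K (K ⊗[k] E) (g.eval α)⁻¹ * aeval t g with hε
  -- the embedding
  let lam : K ⊗[k] E →ₐ[K] K := Algebra.TensorProduct.lift (AlgHom.id K K) φ fun _ _ => Commute.all _ _
  have hlt : lam t = α := by simp [lam, ht, hα]
  have hlε : lam ε = 1 := by
    rw [hε, map_mul, AlgHom.commutes, ← aeval_algHom_apply, hlt]
    simp [inv_mul_cancel₀ hgα]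
  have htε : t * ε = algebraMap K _ α * ε := by
    have h1 : (t - algebraMap K _ α) * aeval t g = 0 := by
      have h2 : aeval t F = 0 := by
        have h3 : aeval t F = (1 : K) ⊗ₜ[k] (aeval θ f) := by
          have h4 : t = Algebra.TensorProduct.includeRight (R := k) (A := K) (B := E) θ := rfl
          rw [hF, aeval_map_algebraMap, h4, aeval_algHom_apply]
          rfl
        rw [h3, hf, minpoly.aeval, tmul_zero]
      rw [hg, map_mul, map_sub, aeval_X, aeval_C] at h2
      exact h2
    have h5 : (t - algebraMap K _ α) * ε = 0 := by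
      rw [hε]
      linear_combination (algebraMap K (K ⊗[k] E) (g.eval α)⁻¹) * h1
    linear_combination h5
  have hpε : ∀ P : K[X], aeval t P * ε = algebraMap K _ (P.eval α) * ε := by
    intro P
    induction P using Polynomial.induction_on' with
    | add P Q hP hQ => rw [map_add, add_mul, hP, hQ, eval_add, map_add, add_mul]
    | monomial n a =>
      rw [aeval_monomial, eval_monomial]
      have h6 : ∀ m : ℕ, t ^ m * ε = algebraMap K _ (α ^ m) * ε := by
        intro m
        induction m with
        | zero => rw [pow_zero, pow_zero, map_one]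
        | succ m ih =>
          rw [pow_succ, mul_assoc, htε, pow_succ, map_mul]
          linear_combination (algebraMap K (K ⊗[k] E) α) * ih
      rw [mul_assoc, h6, map_mul, mul_assoc]
  have hyε : ∀ y : K ⊗[k] E, y * ε = lam y • ε := by
    intro y
    have h7 : ∃ P : K[X], aeval t P = y := by
      induction y with
      | zero => exact ⟨0, map_zero _⟩
      | add y z hy hz =>
        obtain ⟨P, rfl⟩ := hy
        obtain ⟨Q, rfl⟩ := hz
        exact ⟨P + Q, map_add _ _ _⟩
      | tmul a e =>
        have he : e ∈ (⊤ : IntermediateField k E).toSubalgebra := trivial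
        rw [← hθ, IntermediateField.adjoin_simple_toSubalgebra_of_isAlgebraic hi.isAlgebraic,
          Algebra.adjoin_singleton_eq_range_aeval] at he
        obtain ⟨q, rfl⟩ := he
        refine ⟨C a * q.map (algebraMap k K), ?_⟩
        have h4 : t = Algebra.TensorProduct.includeRight (R := k) (A := K) (B := E) θ := rfl
        rw [map_mul, aeval_C, aeval_map_algebraMap, h4, aeval_algHom_apply]
        simp [Algebra.TensorProduct.algebraMap_apply]
    obtain ⟨P, rfl⟩ := h7
    rw [hpε, ← aeval_algHom_apply, hlt, Algebra.smul_def]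
    rfl
  refine ⟨1 + (u - 1) • ε, ?_⟩
  rw [Algebra.norm_apply]
  have h9 : Algebra.lmul K (K ⊗[k] E) (1 + (u - 1) • ε) =
      LinearMap.transvection ((u - 1) • lam.toLinearMap) ε := by
    refine LinearMap.ext fun y => ?_
    rw [LinearMap.transvection.apply]
    simp only [Algebra.coe_lmul_eq_mul, LinearMap.mul_apply', LinearMap.smul_apply,
      AlgHom.toLinearMap_apply, smul_eq_mul]
    rw [add_mul, one_mul, smul_mul_assoc, mul_comm ε y, hyε, smul_smul]
  rw [h9, LinearMap.transvection.det]
  simp only [LinearMap.smul_apply, AlgHom.toLinearMap_apply, smul_eq_mul]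
  rw [hlε]; ring

end alg

end Vale.Agent.P011.Hey.H63
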