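import Mathlib

/-! # Algebra of the Skolem equation `N(f) + Tr(A f) + G = 0`, every characteristic (helper63)

With `z = A f`, `a = N(A)` the equation is `σ = 0` where `σ = N(z) + a (Tr(z) + G)`; if
`ω ^ 2 + G ω = a` then `N(ω - z) = β ω - σ` with `β` in the base field. -/

namespace Vale.Agent.P011.Hey.H63

open Module Polynomial

set_option linter.style.haveILetI false
set_option linter.unusedSectionVars false

section cub

variable {κ S : Type*} [Field κ] [CommRing S] [Algebra κ S]

/-- The norm of `c - z`. -/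
theorem cub (b : Basis (Fin 3) κ S) (z : S) :
    ∃ s : κ, ∀ c : κ, Algebra.norm κ (algebraMap κ S c - z) =
      c ^ 3 - Algebra.trace κ S z * c ^ 2 + s * c - Algebra.norm κ z := by
  set M := Algebra.leftMulMatrix b z with hM
  refine ⟨M 0 0 * M 1 1 - M 0 1 * M 1 0 + (M 0 0 * M 2 2 - M 0 2 * M 2 0) +
    (M 1 1 * M 2 2 - M 1 2 * M 2 1), fun c => ?_⟩
  rw [Algebra.norm_eq_matrix_det b, Algebra.norm_eq_matrix_det b, Algebra.trace_eq_matrix_trace b,
    map_sub, AlgHom.commutes, ← hM, Matrix.det_fin_three, Matrix.det_fin_three,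
    Matrix.trace_fin_three]
  simp [Matrix.algebraMap_matrix_apply]
  ring

/-- `σ` -/
noncomputable def sg (a g : κ) (z : S) : κ := Algebra.norm κ z + a * (Algebra.trace κ S z + g)

/-- `N(ω - z) = β ω - σ` for the two roots of `X ^ 2 + g X - a`. -/
theorem cub_root (b : Basis (Fin 3) κ S) (a g : κ) (z : S) :
    ∃ β : κ, ∀ ω : κ, ω ^ 2 + g * ω = a →
      Algebra.norm κ (algebraMap κ S ω - z) = β * ω - sg a g z := by
  obtain ⟨s, hs⟩ := cub b z
  refine ⟨g ^ 2 + a + Algebra.trace κ S z * g + s, fun ω hω => ?_⟩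
  rw [hs, sg]
  linear_combination (ω - g - Algebra.trace κ S z) * hω

end cub

section solve

variable {k F : Type*} [Field k] [Field F] [Algebra k F]

/-- The Skolem equation has a solution. -/
def Sol (A : F) (G : k) : Prop := ∃ f : F, Algebra.norm k f + Algebra.trace k F (A * f) + G = 0

theorem fd_of_basis (b : Basis (Fin 3) k F) : FiniteDimensional k F := b.finiteDimensional_of_finite

/-- From `σ(z) = 0` to a solution. -/
theorem sol_of_sg (b : Basis (Fin 3) k F) {A : F} (hA : A ≠ 0) (G : k) {z : F}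
    (hz : sg (Algebra.norm k A) G z = 0) : Sol A G := by
  haveI := fd_of_basis b
  have hNA : Algebra.norm k A ≠ 0 := by rwa [Ne, Algebra.norm_eq_zero_iff]
  refine ⟨z / A, ?_⟩
  rw [mul_div_cancel₀ _ hA]
  have h1 : Algebra.norm k A * Algebra.norm k (z / A) = Algebra.norm k z := by
    rw [← map_mul, mul_div_cancel₀ _ hA]
  rw [sg, ← h1] at hz
  apply mul_left_cancel₀ hNA
  linear_combination hz

/-- A double root. -/
theorem sol_double (b : Basis (Fin 3) k F) {A : F} (hA : A ≠ 0) {G ω : k}
    (hs : ω + ω = -G) (hp : ω * ω = -Algebra.norm k A) : Sol A G := by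
  refine sol_of_sg b hA G (z := algebraMap k F ω) ?_
  have h3 : finrank k F = 3 := by rw [finrank_eq_card_basis b, Fintype.card_fin]
  rw [sg, Algebra.norm_algebraMap, Algebra.trace_algebraMap, h3, nsmul_eq_mul]
  push_cast
  have e1 : G = -(ω + ω) := by rw [hs, neg_neg]
  have e2 : Algebra.norm k A = -(ω * ω) := by rw [hp, neg_neg]
  rw [e1, e2]; ring

/-- Two different roots in the base field. -/
theorem sol_split (b : Basis (Fin 3) k F) {A : F} (hA : A ≠ 0) {G ω ω' : k}
    (hs : ω + ω' = -G) (hp : ω * ω' = -Algebra.norm k A) (hne : ω ≠ ω') {y : F}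
    (hy : Algebra.norm k y = ω) : Sol A G := by
  haveI := fd_of_basis b
  have h3 : finrank k F = 3 := by rw [finrank_eq_card_basis b, Fintype.card_fin]
  have hNA : Algebra.norm k A ≠ 0 := by rwa [Ne, Algebra.norm_eq_zero_iff]
  have hω0 : ω ≠ 0 := by
    rintro rfl
    rw [zero_mul, eq_comm, neg_eq_zero] at hp
    exact hNA hp
  have hy0 : y ≠ 0 := by
    rintro rfl
    rw [Algebra.norm_zero] at hy
    exact hω0 hy.symm
  set y' : F := -A / y with hy'
  have hNy' : Algebra.norm k y' = ω' := by
    have h1 : Algebra.norm k y' * Algebra.norm k y = -Algebra.norm k A := by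
      rw [← map_mul, hy', div_mul_cancel₀ _ hy0, ← neg_one_mul, map_mul]
      have h : (-1 : F) = algebraMap k F (-1) := by simp
      rw [h, Algebra.norm_algebraMap, h3]
      ring
    rw [hy, ← hp, mul_comm] at h1
    exact mul_left_cancel₀ hω0 h1
  have hyy : y - y' ≠ 0 := by
    intro h0
    rw [sub_eq_zero] at h0
    apply hne
    rw [← hy, h0, hNy']
  have hωω : ω - ω' ≠ 0 := sub_ne_zero.mpr hne
  have hωωF : algebraMap k F (ω - ω') ≠ 0 := (_root_.map_ne_zero _).mpr hωω
  set q : F := (y - y') / algebraMap k F (ω - ω') with hq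
  have hq0 : q ≠ 0 := div_ne_zero hyy hωωF
  set z : F := algebraMap k F ω - y / q with hz
  have e1 : y = q * (algebraMap k F ω - z) := by
    rw [hz]; field_simp; ring
  have e2 : y' = q * (algebraMap k F ω' - z) := by
    have h1 : q * algebraMap k F (ω - ω') = y - y' := div_mul_cancel₀ _ hωωF
    rw [map_sub] at h1
    linear_combination e1 + h1
  obtain ⟨β, hβ⟩ := cub_root b (Algebra.norm k A) G z
  have hr : ω ^ 2 + G * ω = Algebra.norm k A := by
    have e3 : G = -(ω + ω') := by rw [hs, neg_neg]
    rw [e3]; linear_combination -hp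
  have hr' : ω' ^ 2 + G * ω' = Algebra.norm k A := by
    have e3 : G = -(ω + ω') := by rw [hs, neg_neg]
    rw [e3]; linear_combination -hp
  have h4 : Algebra.norm k q * (β * ω - sg (Algebra.norm k A) G z) = ω := by
    rw [← hβ ω hr, ← map_mul, ← e1, hy]
  have h5 : Algebra.norm k q * (β * ω' - sg (Algebra.norm k A) G z) = ω' := by
    rw [← hβ ω' hr', ← map_mul, ← e2, hNy']
  have hNq : Algebra.norm k q ≠ 0 := by rwa [Ne, Algebra.norm_eq_zero_iff]
  refine sol_of_sg b hA G (z := z) ?_
  have h6 : Algebra.norm k q * (ω - ω') * sg (Algebra.norm k A) G z = 0 := by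
    linear_combination ω' * h4 - ω * h5
  exact (mul_eq_zero.mp h6).resolve_left (mul_ne_zero hNq hωω)

/-- The roots generate a quadratic extension `κ`: here `S = κ ⊗ F`, `i : F → S`, and `S = F + ω F`.
-/
theorem sol_quad (b : Basis (Fin 3) k F) {A : F} (hA : A ≠ 0) {G : k} {κ S : Type*} [Field κ]
    [CommRing S] [Algebra k κ] [Algebra κ S] (i : F →+* S)
    (hi : ∀ c : k, i (algebraMap k F c) = algebraMap κ S (algebraMap k κ c))
    (hn : ∀ e : F, Algebra.norm κ (i e) = algebraMap k κ (Algebra.norm k e))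
    (ht : ∀ e : F, Algebra.trace κ S (i e) = algebraMap k κ (Algebra.trace k F e))
    (bS : Basis (Fin 3) κ S) {ω : κ} (hω : ∀ c : k, algebraMap k κ c ≠ ω)
    (hr : ω ^ 2 + algebraMap k κ G * ω = algebraMap k κ (Algebra.norm k A))
    {p q : F} (hy : Algebra.norm κ (i p + algebraMap κ S ω * i q) = ω) : Sol A G := by
  haveI := fd_of_basis b
  have hq0 : q ≠ 0 := by
    rintro rfl
    rw [map_zero, mul_zero, add_zero, hn] at hy
    exact hω _ hy
  set z : F := -(p / q) with hz
  have e1 : i p + algebraMap κ S ω * i q = i q * (algebraMap κ S ω - i z) := by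
    have h1 : i p = -(i q * i z) := by
      rw [← map_mul, ← map_neg]
      congr 1
      rw [hz]; field_simp
    rw [h1]; ring
  obtain ⟨s, hs⟩ := cub bS (i z)
  obtain ⟨s', hs'⟩ := cub b z
  -- the two values of `s` agree up to what is needed: evaluate at one
  have hss : s = algebraMap k κ s' := by
    have h1 := hs 1
    have h2 := hs' 1
    have h3 : Algebra.norm κ (algebraMap κ S 1 - i z) =
        algebraMap k κ (Algebra.norm k (algebraMap k F 1 - z)) := by
      have e0 : algebraMap κ S 1 - i z = i (algebraMap k F 1 - z) := by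
        rw [map_sub i, hi, map_one (algebraMap k κ)]
      rw [e0, hn]
    rw [h3, h2, hn, ht] at h1
    simp only [map_add, map_sub, map_mul, map_pow, map_one] at h1
    linear_combination -h1
  set n := Algebra.norm k z with hnn
  set t := Algebra.trace k F z with htt
  set a := Algebra.norm k A with haa
  have h4 : Algebra.norm κ (algebraMap κ S ω - i z) =
      algebraMap k κ (G ^ 2 + a + t * G + s') * ω - algebraMap k κ (sg a G z) := by
    rw [hs, hss, hn, ht, sg]
    simp only [map_add, map_mul, map_pow]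
    linear_combination (ω - algebraMap k κ G - algebraMap k κ t) * hr
  rw [e1, map_mul, hn, h4] at hy
  refine sol_of_sg b hA G (z := z) ?_
  by_contra hne
  have hNq : Algebra.norm k q ≠ 0 := by rwa [Ne, Algebra.norm_eq_zero_iff]
  set ν := Algebra.norm k q with hν
  have h5 : algebraMap k κ (ν * (G ^ 2 + a + t * G + s') - 1) * ω = algebraMap k κ (ν * sg a G z) := by
    simp only [map_add, map_sub, map_mul, map_pow, map_one] at hy ⊢
    linear_combination hy
  by_cases h6 : ν * (G ^ 2 + a + t * G + s') - 1 = 0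
  · rw [h6, map_zero, zero_mul, eq_comm, map_eq_zero_iff _ (algebraMap k κ).injective] at h5
    exact mul_ne_zero hNq hne h5
  · apply hω (ν * sg a G z / (ν * (G ^ 2 + a + t * G + s') - 1))
    rw [map_div₀, ← h5, mul_comm, mul_div_assoc, div_self, mul_one]
    exact (_root_.map_ne_zero _).mpr h6

end solve

end Vale.Agent.P011.Hey.H63
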