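import Vale.Agent.P011.Hey.H63.Sk1
import Vale.Agent.P011.Hey.H63.LocCrit

/-! # Local norms from a point of the Skolem equation (helper63) -/

namespace Vale.Agent.P011.Hey.H63

open Module Polynomial TensorProduct

set_option linter.style.haveILetI false
set_option linter.unusedSectionVars false

section alg

variable {k F K : Type*} [Field k] [Field F] [Algebra k F] [Field K] [Algebra k K]

theorem exists_aeval (pb : PowerBasis k F) (y : K ⊗[k] F) :
    ∃ g : K[X], aeval ((1 : K) ⊗ₜ[k] pb.gen) g = y := by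
  induction y with
  | zero => exact ⟨0, map_zero _⟩
  | add y z hy hz =>
    obtain ⟨P, rfl⟩ := hy
    obtain ⟨Q, rfl⟩ := hz
    exact ⟨P + Q, map_add _ _ _⟩
  | tmul a e =>
    obtain ⟨q, rfl⟩ := pb.exists_eq_aeval' e
    refine ⟨C a * q.map (algebraMap k K), ?_⟩
    have h4 : (1 : K) ⊗ₜ[k] pb.gen =
      Algebra.TensorProduct.includeRight (R := k) (A := K) (B := F) pb.gen := rfl
    rw [map_mul, aeval_C, aeval_map_algebraMap, h4, aeval_algHom_apply]
    simp [Algebra.TensorProduct.algebraMap_apply]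

theorem aeval_one_tmul (x : F) (q : k[X]) : aeval ((1 : K) ⊗ₜ[k] x) (q.map (algebraMap k K)) =
    (1 : K) ⊗ₜ[k] (aeval x q) := by
  have h4 : (1 : K) ⊗ₜ[k] x = Algebra.TensorProduct.includeRight (R := k) (A := K) (B := F) x := rfl
  rw [aeval_map_algebraMap, h4, aeval_algHom_apply]
  rfl

/-- A nonzero element of norm zero in the cubic algebra `K ⊗ F` gives an embedding `F → K`. -/
theorem point_of_norm_zero (h3 : finrank k F = 3) [Algebra.IsSeparable k F] {x : K ⊗[k] F}
    (hx : x ≠ 0) (hn : Algebra.norm K x = 0) : Nonempty (F →ₐ[k] K) := by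
  haveI : FiniteDimensional k F := Module.finite_of_finrank_pos (by omega)
  let pb := Field.powerBasisOfFiniteOfSeparable k F
  set P : k[X] := minpoly k pb.gen with hP
  have hPm : P.Monic := minpoly.monic pb.isIntegral_gen
  have hPd : P.natDegree = 3 := by rw [hP, pb.natDegree_minpoly, ← pb.finrank, h3]
  set Q : K[X] := P.map (algebraMap k K) with hQ
  have hQm : Q.Monic := hPm.map _
  have hQd : Q.natDegree = 3 := by rw [hQ, hPm.natDegree_map, hPd]
  set t : K ⊗[k] F := (1 : K) ⊗ₜ[k] pb.gen with ht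
  have hQ0 : aeval t Q = 0 := by rw [hQ, aeval_one_tmul, hP, minpoly.aeval, tmul_zero]
  obtain ⟨g, rfl⟩ := exists_aeval pb x
  by_cases hroot : ∃ α : K, Q.IsRoot α
  · obtain ⟨α, hα⟩ := hroot
    refine ⟨pb.lift α ?_⟩
    rw [← hP, ← aeval_map_algebraMap K, ← hQ, coe_aeval_eq_eval]
    exact hα
  · exfalso
    have hirr : Irreducible Q := by
      rw [hQm.irreducible_iff_roots_eq_zero_of_degree_le_three (by omega) (by omega)]
      rw [Multiset.eq_zero_iff_forall_notMem]
      intro α hα
      exact hroot ⟨α, (mem_roots hQm.ne_zero).mp hα⟩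
    have hcop : IsCoprime Q g := by
      rw [hirr.coprime_iff_not_dvd]
      rintro ⟨c, hc⟩
      apply hx
      rw [hc, map_mul, hQ0, zero_mul]
    obtain ⟨u, w, huw⟩ := hcop
    have h1 := congrArg (aeval t) huw
    rw [map_add, map_mul, map_mul, hQ0, mul_zero, zero_add, map_one] at h1
    have h2 := congrArg (Algebra.norm K) h1
    rw [map_mul, hn, mul_zero, map_one] at h2
    exact zero_ne_one h2

variable (k F K) in
/-- The equation `σ = 0` has a solution in `K ⊗ F`. -/
def SPt (a g : k) : Prop := ∃ z : K ⊗[k] F, sg (algebraMap k K a) (algebraMap k K g) z = 0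

/-- From the Skolem equation to `σ = 0`. -/
theorem sPt_of_point (h3 : finrank k F = 3) {A : F} {G : k}
    (h : ∃ f : K ⊗[k] F, Algebra.norm K f +
      Algebra.trace K (K ⊗[k] F) (((1 : K) ⊗ₜ[k] A) * f) + algebraMap k K G = 0) :
    SPt k F K (Algebra.norm k A) G := by
  haveI : FiniteDimensional k F := Module.finite_of_finrank_pos (by omega)
  obtain ⟨f, hf⟩ := h
  refine ⟨((1 : K) ⊗ₜ[k] A) * f, ?_⟩
  rw [sg, map_mul, norm_one_tmul]
  linear_combination (algebraMap k K (Algebra.norm k A)) * hf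

/-- From `σ = 0` to the Skolem equation. -/
theorem point_of_sPt (h3 : finrank k F = 3) {A : F} (hA : A ≠ 0) {G : k}
    (h : SPt k F K (Algebra.norm k A) G) :
    ∃ f : K ⊗[k] F, Algebra.norm K f +
      Algebra.trace K (K ⊗[k] F) (((1 : K) ⊗ₜ[k] A) * f) + algebraMap k K G = 0 := by
  haveI : FiniteDimensional k F := Module.finite_of_finrank_pos (by omega)
  have hNA : Algebra.norm k A ≠ 0 := by rwa [Ne, Algebra.norm_eq_zero_iff]
  have hNA' : algebraMap k K (Algebra.norm k A) ≠ 0 := (_root_.map_ne_zero _).mpr hNA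
  obtain ⟨z, hz⟩ := h
  have h1 : ((1 : K) ⊗ₜ[k] A) * (((1 : K) ⊗ₜ[k] A⁻¹) * z) = z := by
    rw [← mul_assoc, Algebra.TensorProduct.tmul_mul_tmul, one_mul, mul_inv_cancel₀ hA]
    change (1 : K ⊗[k] F) * z = z
    rw [one_mul]
  refine ⟨((1 : K) ⊗ₜ[k] A⁻¹) * z, ?_⟩
  rw [h1]
  have h2 : algebraMap k K (Algebra.norm k A) * Algebra.norm K (((1 : K) ⊗ₜ[k] A⁻¹) * z) =
      Algebra.norm K z := by
    rw [← norm_one_tmul, ← map_mul, h1]
  apply mul_left_cancel₀ hNA'
  rw [sg] at hz
  linear_combination h2 + hz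

/-- A point of the Skolem equation over `K` makes its roots norms from `K ⊗ F`. -/
theorem isN_of_sPt (h3 : finrank k F = 3) [Algebra.IsSeparable k F] {A : F} (hA : A ≠ 0)
    {G : k} {ω ω' : K} (hs : ω + ω' = -algebraMap k K G)
    (hp : ω * ω' = -algebraMap k K (Algebra.norm k A)) (hne : ω ≠ ω')
    (h : SPt k F K (Algebra.norm k A) G) : IsN k F K ω := by
  haveI : FiniteDimensional k F := Module.finite_of_finrank_pos (by omega)
  have hNA : Algebra.norm k A ≠ 0 := by rwa [Ne, Algebra.norm_eq_zero_iff]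
  obtain ⟨z, hσ⟩ := h
  let b : Basis (Fin 3) K (K ⊗[k] F) :=
    Algebra.TensorProduct.basis K (Module.finBasisOfFinrankEq k F h3)
  set a : K := algebraMap k K (Algebra.norm k A) with ha
  set g : K := algebraMap k K G with hg
  have ha0 : a ≠ 0 := (_root_.map_ne_zero _).mpr hNA
  obtain ⟨β, hβ⟩ := cub_root b a g z
  have hg' : g = -(ω + ω') := by rw [hs, neg_neg]
  have hr : ω ^ 2 + g * ω = a := by
    rw [hg']; linear_combination -hp
  have hr' : ω' ^ 2 + g * ω' = a := by
    rw [hg']; linear_combination -hp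
  have h1 := hβ ω hr
  have h2 := hβ ω' hr'
  rw [hσ, sub_zero] at h1 h2
  have hω0 : ω ≠ 0 := by
    rintro rfl
    rw [zero_mul, eq_comm, neg_eq_zero] at hp
    exact ha0 hp
  by_cases hβ0 : β = 0
  · rw [hβ0, zero_mul] at h1 h2
    -- one of the two differences is not zero
    have h4 : algebraMap K (K ⊗[k] F) ω - z ≠ 0 ∨ algebraMap K (K ⊗[k] F) ω' - z ≠ 0 := by
      by_contra hcon
      push Not at hcon
      apply hne
      haveI : Nontrivial (K ⊗[k] F) := inferInstance
      apply (algebraMap K (K ⊗[k] F)).injective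
      rw [sub_eq_zero.mp hcon.1, sub_eq_zero.mp hcon.2]
    have h5 : Nonempty (F →ₐ[k] K) := by
      rcases h4 with h | h
      · exact point_of_norm_zero h3 h h1
      · exact point_of_norm_zero h3 h h2
    obtain ⟨φ⟩ := h5
    exact IsN.of_algHom φ ω
  · have h4 : IsN k F K (β * ω) := ⟨_, h1⟩
    have h5 : IsN k F K (β * ω') := ⟨_, h2⟩
    have h6 : IsN k F K a := IsN.of_norm A
    have hm1 : IsN k F K ((-1 : K) ^ 3) := by
      have := IsN.of_pow (k := k) (E := F) (-1 : K)
      rwa [h3] at this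
    have h7 : IsN k F K (ω ^ 3) := by
      have := IsN.of_pow (k := k) (E := F) ω
      rwa [h3] at this
    have h8 : IsN k F K (ω ^ 2) := by
      have h9 := ((h4.mul h4).mul (hm1.mul h6)).div (h4.mul h5)
      have h10 : β * ω * (β * ω) * ((-1 : K) ^ 3 * a) / (β * ω * (β * ω')) = ω ^ 2 := by
        have hω'0 : ω' ≠ 0 := by
          rintro rfl
          rw [mul_zero, eq_comm, neg_eq_zero] at hp
          exact ha0 hp
        have e1 : (-1 : K) ^ 3 * a = ω * ω' := by rw [hp]; ring
        rw [e1]; field_simp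
      rwa [h10] at h9
    have h11 := h7.div h8
    have h12 : ω ^ 3 / ω ^ 2 = ω := by field_simp
    rwa [h12] at h11

/-- If the quotient of the roots is a norm then both are. -/
theorem isN_of_quot (h3 : finrank k F = 3) [FiniteDimensional k F] {A : F} (hA : A ≠ 0)
    {ω ω' : K} (hp : ω * ω' = -algebraMap k K (Algebra.norm k A)) (h : IsN k F K (ω / ω')) :
    IsN k F K ω := by
  have hNA : Algebra.norm k A ≠ 0 := by rwa [Ne, Algebra.norm_eq_zero_iff]
  set a : K := algebraMap k K (Algebra.norm k A) with ha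
  have ha0 : a ≠ 0 := (_root_.map_ne_zero _).mpr hNA
  have hω0 : ω ≠ 0 := by
    rintro rfl
    rw [zero_mul, eq_comm, neg_eq_zero] at hp
    exact ha0 hp
  have hω'0 : ω' ≠ 0 := by
    rintro rfl
    rw [mul_zero, eq_comm, neg_eq_zero] at hp
    exact ha0 hp
  have h6 : IsN k F K a := IsN.of_norm A
  have hm1 : IsN k F K ((-1 : K) ^ 3) := by
    have := IsN.of_pow (k := k) (E := F) (-1 : K)
    rwa [h3] at this
  have h7 : IsN k F K (ω ^ 3) := by
    have := IsN.of_pow (k := k) (E := F) ω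
    rwa [h3] at this
  have h8 := h7.div (h.mul (hm1.mul h6))
  have h9 : ω ^ 3 / (ω / ω' * ((-1 : K) ^ 3 * a)) = ω := by
    have e1 : (-1 : K) ^ 3 * a = ω * ω' := by rw [hp]; ring
    rw [e1]; field_simp
  rwa [h9] at h8

end alg

end Vale.Agent.P011.Hey.H63
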