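import Vale.Agent.P011.Hey.H63.Sk4

/-! # The Hasse principle for the Skolem equation over global function fields (helper63) -/

namespace Vale.Agent.P011.Hey.H63

open Module Polynomial TensorProduct
open Vale.Agent.P011.H738 Vale.Agent.P011.H271

set_option linter.style.haveILetI false
set_option linter.unusedSectionVars false

section

variable {k F R M : Type} [Field k] [GFF k] [Field F] [Algebra k F] [Algebra.IsSeparable k F]
  [Field R] [Field M] [Algebra k R] [Algebra k M] [Algebra R M] [Algebra F M]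
  [IsScalarTower k R M] [IsScalarTower k F M] [FiniteDimensional k R]

/-- Roots of an integral monic quadratic polynomial. -/
theorem norm_root_le {K : Type*} [NormedField K] [IsUltrametricDist K] {a g ω : K}
    (h : ω ^ 2 + g * ω = a) (ha : ‖a‖ ≤ 1) (hg : ‖g‖ ≤ 1) : ‖ω‖ ≤ 1 := by
  by_contra hlt
  push Not at hlt
  have h1 : ω ^ 2 = a + -(g * ω) := by rw [← h]; ring
  have h2 : ‖ω ^ 2‖ ≤ max ‖a‖ ‖-(g * ω)‖ := by
    rw [h1]; exact IsUltrametricDist.norm_add_le_max _ _
  rw [norm_neg, norm_mul, norm_pow] at h2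
  have h3 : ‖g‖ * ‖ω‖ < ‖ω‖ ^ 2 := by nlinarith [norm_nonneg g, norm_nonneg ω]
  have h4 : ‖a‖ < ‖ω‖ ^ 2 := by nlinarith
  exact absurd h2 (not_le.mpr (max_lt h4 h3))

/-- Separability goes up. -/
theorem sep_up (hF : finrank k F = 3) (hM : finrank R M = 3)
    (hc : Nat.Coprime (finrank k R) 3) : Algebra.IsSeparable R M := by
  haveI : FiniteDimensional k F := Module.finite_of_finrank_pos (by omega)
  haveI : FiniteDimensional R M := Module.finite_of_finrank_pos (by omega)
  have hb := toM_bijective (k := k) (R := R) (E := F) (M := M) Nat.prime_three hF hM hc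
  -- every generator is separable
  have h1 : ∀ e : F, IsSeparable R (algebraMap F M e) := by
    intro e
    have h2 : (minpoly k e).Separable := Algebra.IsSeparable.isSeparable k e
    have h3 : (minpoly R (algebraMap F M e)) ∣ (minpoly k e).map (algebraMap k R) := by
      refine minpoly.dvd _ _ ?_
      rw [aeval_map_algebraMap, aeval_algebraMap_apply, minpoly.aeval, map_zero]
    exact (h2.map (f := algebraMap k R)).of_dvd h3
  rw [← separableClosure.eq_top_iff]
  rw [eq_top_iff]
  intro x _
  obtain ⟨y, rfl⟩ := hb.2 x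
  induction y with
  | zero => rw [map_zero]; exact zero_mem _
  | add y z hy hz => rw [map_add]; exact add_mem (hy trivial) (hz trivial)
  | tmul r e =>
    rw [toM_tmul]
    refine mul_mem (algebraMap_mem _ _) ?_
    rw [mem_separableClosure_iff]
    exact h1 e

/-- **The root is a norm.** -/
theorem root_norm (hF : finrank k F = 3) (hM : finrank R M = 3)
    (hc : Nat.Coprime (finrank k R) 3) (h2 : (2 : k) ≠ 0) (pb : PowerBasis k F) {A : F} (hA : A ≠ 0)
    {G : k} {ω ω' : R} (hs : ω + ω' = -algebraMap k R G)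
    (hp : ω * ω' = -algebraMap k R (Algebra.norm k A)) (hne : ω ≠ ω')
    (h : ∀ v : Place k, Nonempty (F →ₐ[k] v.comp) ∨ ∃ c : k, c ≠ 0 ∧
      (GoodF F v (c ^ 6 * Algebra.norm k A) (c ^ 3 * G) ∨
        (Unr (minpoly k pb.gen) v ∧ v.abv (c ^ 6 * Algebra.norm k A) = 1 ∧
          v.abv (c ^ 3 * G) ≤ 1))) : ∃ y : M, Algebra.norm R y = ω := by
  haveI : FiniteDimensional k F := Module.finite_of_finrank_pos (by omega)
  haveI : FiniteDimensional R M := Module.finite_of_finrank_pos (by omega)
  haveI : GFF R := gff_of_finite (k := k)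
  haveI : Algebra.IsSeparable R M := sep_up (k := k) (F := F) hF hM hc
  have hNA : Algebra.norm k A ≠ 0 := by rwa [Ne, Algebra.norm_eq_zero_iff]
  refine norm_of_local_prime Nat.prime_three (cycN Nat.prime_three) hM ω fun W => ?_
  obtain ⟨v, s, hs0, hvW⟩ := exists_below (k := k) W
  obtain ⟨φ, hφ⟩ := exists_compHom v W hs0 hvW
  let φ' : v.comp →ₐ[k] W.comp := { φ with commutes' := fun x => hφ x }
  have hnorm : ∀ x : k, ‖algebraMap k W.comp x‖ = v.abv x ^ s := by
    intro x
    rw [← hvW, ← norm_alg]; rfl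
  have halg : ∀ x : k, algebraMap R W.comp (algebraMap k R x) = algebraMap k W.comp x := fun x => rfl
  rw [locN_iff]
  -- the two equations in the completion, scaled by `c`
  have hsc : ∀ c : k, algebraMap k W.comp c ^ 3 * algebraMap R W.comp ω +
      algebraMap k W.comp c ^ 3 * algebraMap R W.comp ω' = -algebraMap k W.comp (c ^ 3 * G) := by
    intro c
    rw [← mul_add, ← map_add, hs, map_neg, halg, map_mul, map_pow, mul_neg]
  have hpc : ∀ c : k, (algebraMap k W.comp c ^ 3 * algebraMap R W.comp ω) *
      (algebraMap k W.comp c ^ 3 * algebraMap R W.comp ω') =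
        -algebraMap k W.comp (c ^ 6 * Algebra.norm k A) := by
    intro c
    have h1 : algebraMap R W.comp ω * algebraMap R W.comp ω' =
        -algebraMap k W.comp (Algebra.norm k A) := by
      rw [← map_mul, hp, map_neg, halg]
    rw [map_mul, map_pow]
    linear_combination (algebraMap k W.comp c ^ 6) * h1
  have hnormc : ∀ c : k, Algebra.norm k (algebraMap k F (c ^ 2) * A) = c ^ 6 * Algebra.norm k A := by
    intro c
    rw [map_mul, Algebra.norm_algebraMap, hF, ← pow_mul]
  have hcube : ∀ c : k, c ≠ 0 → IsN k F W.comp (algebraMap k W.comp c ^ 3 * algebraMap R W.comp ω) →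
      IsN k F W.comp (algebraMap R W.comp ω) := by
    intro c hc0 h1
    have hcK : algebraMap k W.comp c ≠ 0 := (_root_.map_ne_zero _).mpr hc0
    have h2 : IsN k F W.comp (algebraMap k W.comp c ^ 3) := by
      have := IsN.of_pow (k := k) (E := F) (algebraMap k W.comp c)
      rwa [hF] at this
    have h3 := h1.div h2
    rwa [mul_div_cancel_left₀ _ (pow_ne_zero 3 hcK)] at h3
  have hneW : ∀ c : k, c ≠ 0 → algebraMap k W.comp c ^ 3 * algebraMap R W.comp ω ≠
      algebraMap k W.comp c ^ 3 * algebraMap R W.comp ω' := by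
    intro c hc0 h1
    have hcK : algebraMap k W.comp c ≠ 0 := (_root_.map_ne_zero _).mpr hc0
    exact hne ((algebraMap R W.comp).injective (mul_left_cancel₀ (pow_ne_zero 3 hcK) h1))
  have h2W : ‖(2 : W.comp)‖ = 1 := by
    have h1 := hnorm ((2 : ℕ) : k)
    rw [abv_nat_eq_one v (m := 2) (by exact_mod_cast h2), Real.one_rpow, map_natCast] at h1
    exact_mod_cast h1
  rcases h v with ⟨⟨ψ⟩⟩ | ⟨c, hc0, (h1 | h1) | ⟨⟨P, hPm, hP, hPs⟩, ha1, hg1⟩⟩
  · exact IsN.up (k := k) (F := F) Nat.prime_three hF hM hc (IsN.of_algHom (φ'.comp ψ) _)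
  · refine IsN.up (k := k) (F := F) Nat.prime_three hF hM hc (hcube c hc0 ?_)
    have hA' : algebraMap k F (c ^ 2) * A ≠ 0 :=
      mul_ne_zero ((_root_.map_ne_zero _).mpr (pow_ne_zero 2 hc0)) hA
    refine isN_of_sPt hF hA' (G := c ^ 3 * G) (hsc c) ?_ (hneW c hc0) ?_
    · rw [hnormc]; exact hpc c
    · rw [hnormc]; exact h1.map φ'
  · refine IsN.up (k := k) (F := F) Nat.prime_three hF hM hc (hcube c hc0 ?_)
    have hA' : algebraMap k F (c ^ 2) * A ≠ 0 :=
      mul_ne_zero ((_root_.map_ne_zero _).mpr (pow_ne_zero 2 hc0)) hA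
    refine isN_of_crit2 hF hA' (G := c ^ 3 * G) (v := v) ?_ hs0 hnorm h2W (hsc c) ?_
    · rw [hnormc]; exact h1
    · rw [hnormc]; exact hpc c
  · -- the unramified place
    have hint : ∀ x : Ov v, W.abv (algebraMap k R x) ≤ 1 := by
      intro x
      rw [hvW]
      exact Real.rpow_le_one (v.abv.nonneg _) x.2 hs0.le
    let ι : Ov v →+* Ov W := ((algebraMap k R).comp (Ov v).subtype).codRestrict (Ov W) hint
    have hιm : (P.map ι).map (Ov W).subtype = (minpoly k pb.gen).map (algebraMap k R) := by
      rw [hP, Polynomial.map_map, Polynomial.map_map]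
      congr 1
    have hmd : (minpoly k pb.gen).natDegree = 3 := by rw [pb.natDegree_minpoly, ← pb.finrank, hF]
    have hmm : (minpoly k pb.gen).Monic := minpoly.monic pb.isIntegral_gen
    obtain ⟨pbM, hpbM, hmin⟩ := exists_pb (k := R) (E := M) Nat.prime_three hM
      (f := (minpoly k pb.gen).map (algebraMap k R)) (hmm.map _) (by rw [hmm.natDegree_map, hmd])
      (θ := algebraMap F M pb.gen) (by
        rw [aeval_map_algebraMap, aeval_algebraMap_apply, minpoly.aeval, map_zero]) (by
        intro c1 hc1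
        have h3 : aeval c1 (minpoly k pb.gen) = 0 := by
          apply (algebraMap R M).injective
          rw [map_zero, ← aeval_algebraMap_apply, hc1, aeval_algebraMap_apply, minpoly.aeval,
            map_zero]
        let ψ : F →ₐ[k] R := pb.lift c1 h3
        letI : Algebra F R := ψ.toRingHom.toAlgebra
        haveI : IsScalarTower k F R := IsScalarTower.of_algebraMap_eq fun x => (ψ.commutes x).symm
        have h5 : 3 ∣ finrank k R := by
          rw [← Module.finrank_mul_finrank k F R, hF]; exact dvd_mul_right _ _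
        rw [Nat.coprime_comm, Nat.prime_three.coprime_iff_not_dvd] at hc
        exact hc h5)
    set η : R := algebraMap k R c ^ 3 * ω with hη
    have hηW : algebraMap R W.comp η = algebraMap k W.comp c ^ 3 * algebraMap R W.comp ω := by
      rw [hη, map_mul, map_pow, halg]
    have hna : ‖algebraMap k W.comp (c ^ 6 * Algebra.norm k A)‖ = 1 := by
      rw [hnorm, ha1, Real.one_rpow]
    have hng : ‖algebraMap k W.comp (c ^ 3 * G)‖ ≤ 1 := by
      rw [hnorm]; exact Real.rpow_le_one (v.abv.nonneg _) hg1 hs0.le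
    have hr : ∀ x y : W.comp, x + y = -algebraMap k W.comp (c ^ 3 * G) →
        x * y = -algebraMap k W.comp (c ^ 6 * Algebra.norm k A) → ‖x‖ ≤ 1 := by
      intro x y h3 h4
      refine norm_root_le (a := algebraMap k W.comp (c ^ 6 * Algebra.norm k A))
        (g := algebraMap k W.comp (c ^ 3 * G)) ?_ hna.le hng
      have e3 : algebraMap k W.comp (c ^ 3 * G) = -(x + y) := by rw [h3, neg_neg]
      rw [e3]; linear_combination -h4
    have hη1 := hr _ _ (hsc c) (hpc c)
    have hη2 := hr _ _ ((add_comm _ _).trans (hsc c)) ((mul_comm _ _).trans (hpc c))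
    have hηn : ‖algebraMap R W.comp η‖ = 1 := by
      rw [hηW]
      have h3 := congrArg norm (hpc c)
      rw [norm_mul, norm_neg, hna] at h3
      refine le_antisymm hη1 ?_
      rw [← h3]
      exact mul_le_of_le_one_right (norm_nonneg _) hη2
    have h6 : LocN M η W := by
      refine loc_unram (k := R) (E := M) (v := W) pbM (hPm.map ι) (hmin.trans hιm.symm)
        (hPs.map) (d := 1) one_ne_zero ?_
      rw [map_one, one_pow, ← norm_alg, hηn]
    have h7 : LocN M ((algebraMap k R c) ^ 3) W := by
      have := LocN.of_pow (k := R) (E := M) (algebraMap k R c) W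
      rwa [hM] at this
    have h8 := h6.div h7
    have hcR : algebraMap k R c ≠ 0 := (_root_.map_ne_zero _).mpr hc0
    rw [hη, mul_div_cancel_left₀ _ (pow_ne_zero 3 hcR)] at h8
    exact h8

end

end Vale.Agent.P011.Hey.H63
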