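import Vale.Agent.P011.Hey.H63.Sk5

/-! # The Hasse principle for the Skolem equation over global function fields: end (helper63) -/

namespace Vale.Agent.P011.Hey.H63

open Module Polynomial TensorProduct
open Vale.Agent.P011.H738 Vale.Agent.P011.H271

set_option linter.style.haveILetI false
set_option linter.unusedSectionVars false

section quad

variable {k F : Type} [Field k] [Field F] [Algebra k F]

/-- The quadratic extension generated by a root of `X ^ 2 + g X - a` and its compositum with the
cubic extension `F`. -/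
theorem exists_quadF (hF : finrank k F = 3) [Algebra.IsSeparable k F] (pb : PowerBasis k F)
    {a g : k} (hirr : ∀ ω : k, ω ^ 2 + g * ω ≠ a) :
    ∃ (R M : Type) (_ : Field R) (_ : Field M) (_ : Algebra k R) (_ : Algebra k M)
      (_ : Algebra R M) (_ : Algebra F M) (_ : IsScalarTower k R M) (_ : IsScalarTower k F M)
      (ω : R), FiniteDimensional k R ∧ finrank k R = 2 ∧ finrank R M = 3 ∧
        ω ^ 2 + algebraMap k R g * ω = algebraMap k R a ∧ (∀ c : k, algebraMap k R c ≠ ω) ∧
        ∀ c : R, ∃ x y : k, c = algebraMap k R x + algebraMap k R y * ω := by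
  set Q : k[X] := X ^ 2 + C g * X - C a with hQ
  have hQm : Q.Monic := by rw [hQ]; monicity!
  have hQd : Q.natDegree = 2 := by rw [hQ]; compute_degree!
  have hQe : ∀ ω : k, Q.eval ω = ω ^ 2 + g * ω - a := by intro ω; simp [hQ]
  have hQi : Irreducible Q := by
    rw [hQm.irreducible_iff_roots_eq_zero_of_degree_le_three (by omega) (by omega),
      Multiset.eq_zero_iff_forall_notMem]
    intro α hα
    have h1 := (mem_roots hQm.ne_zero).mp hα
    rw [IsRoot.def, hQe, sub_eq_zero] at h1
    exact hirr α h1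
  haveI : Fact (Irreducible Q) := ⟨hQi⟩
  let R := AdjoinRoot Q
  have hkR : finrank k R = 2 := by
    rw [(AdjoinRoot.powerBasis hQi.ne_zero).finrank, AdjoinRoot.powerBasis_dim, hQd]
  haveI : FiniteDimensional k R := Module.finite_of_finrank_pos (by omega)
  set ω : R := AdjoinRoot.root Q with hω
  have hωr : ω ^ 2 + algebraMap k R g * ω = algebraMap k R a := by
    have h1 := AdjoinRoot.aeval_eq (f := Q) Q
    rw [AdjoinRoot.mk_self, hQ] at h1
    simp only [map_sub, map_add, map_mul, map_pow, aeval_X, aeval_C] at h1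
    exact sub_eq_zero.mp h1
  have hωk : ∀ c : k, algebraMap k R c ≠ ω := by
    intro c hc
    apply hirr c
    apply (algebraMap k R).injective
    rw [map_add, map_pow, map_mul, hc, hωr]
  -- the compositum
  have hmd : (minpoly k pb.gen).natDegree = 3 := by rw [pb.natDegree_minpoly, ← pb.finrank, hF]
  have hmm : (minpoly k pb.gen).Monic := minpoly.monic pb.isIntegral_gen
  set P : R[X] := (minpoly k pb.gen).map (algebraMap k R) with hP
  have hPm : P.Monic := hmm.map _
  have hPd : P.natDegree = 3 := by rw [hP, hmm.natDegree_map, hmd]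
  have hPi : Irreducible P := by
    rw [hPm.irreducible_iff_roots_eq_zero_of_degree_le_three (by omega) (by omega),
      Multiset.eq_zero_iff_forall_notMem]
    intro c1 hα
    have h3 : aeval c1 (minpoly k pb.gen) = 0 := by
      have h1 := (mem_roots hPm.ne_zero).mp hα
      rw [IsRoot.def, hP, eval_map_algebraMap] at h1
      exact h1
    let ψ : F →ₐ[k] R := pb.lift c1 h3
    letI : Algebra F R := ψ.toRingHom.toAlgebra
    haveI : IsScalarTower k F R := IsScalarTower.of_algebraMap_eq fun x => (ψ.commutes x).symm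
    have h5 : 3 ∣ finrank k R := by
      rw [← Module.finrank_mul_finrank k F R, hF]; exact dvd_mul_right _ _
    rw [hkR] at h5
    omega
  haveI : Fact (Irreducible P) := ⟨hPi⟩
  let M := AdjoinRoot P
  have hRM : finrank R M = 3 := by
    rw [(AdjoinRoot.powerBasis hPi.ne_zero).finrank, AdjoinRoot.powerBasis_dim, hPd]
  let ψ : F →ₐ[k] M := pb.lift (AdjoinRoot.root P) (by
    rw [← aeval_map_algebraMap R, ← hP, AdjoinRoot.aeval_eq, AdjoinRoot.mk_self])
  letI : Algebra F M := ψ.toRingHom.toAlgebra
  haveI : IsScalarTower k F M := IsScalarTower.of_algebraMap_eq fun x => (ψ.commutes x).symm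
  refine ⟨R, M, inferInstance, inferInstance, inferInstance, inferInstance, inferInstance,
    inferInstance, inferInstance, inferInstance, ω, inferInstance, hkR, hRM, hωr, hωk, ?_⟩
  intro c
  let pbR := AdjoinRoot.powerBasis hQi.ne_zero
  obtain ⟨f, hfd, hf⟩ := pbR.exists_eq_aeval c
  have hdim : pbR.dim = 2 := by rw [AdjoinRoot.powerBasis_dim, hQd]
  rw [hdim] at hfd
  have hgen : pbR.gen = ω := AdjoinRoot.powerBasis_gen hQi.ne_zero
  refine ⟨f.coeff 0, f.coeff 1, ?_⟩
  rw [hf, hgen, aeval_eq_sum_range' hfd, Finset.sum_range_succ, Finset.sum_range_one, pow_zero,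
    pow_one, Algebra.smul_def, Algebra.smul_def, mul_one]

/-- **The Hasse principle for the Skolem equation** `N(f) + Tr(A f) + G = 0` of a separable cubic
extension of a global function field. -/
theorem skolemF [GFF k] [Algebra.IsSeparable k F] (hF : finrank k F = 3) (h2 : (2 : k) ≠ 0) :
    ∃ S₀ : Set (Place k), S₀.Finite ∧ ∀ A : F, A ≠ 0 → ∀ G : k,
      (∀ v : Place k, Nonempty (F →ₐ[k] v.comp) ∨ ∃ c : k, c ≠ 0 ∧
        (GoodF F v (c ^ 6 * Algebra.norm k A) (c ^ 3 * G) ∨
          (v ∉ S₀ ∧ v.abv (c ^ 6 * Algebra.norm k A) = 1 ∧ v.abv (c ^ 3 * G) ≤ 1))) →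
      ∃ f : F, Algebra.norm k f + Algebra.trace k F (A * f) + G = 0 := by
  haveI : FiniteDimensional k F := Module.finite_of_finrank_pos (by omega)
  let pb := Field.powerBasisOfFiniteOfSeparable k F
  have hmd : (minpoly k pb.gen).natDegree = 3 := by rw [pb.natDegree_minpoly, ← pb.finrank, hF]
  have hmm : (minpoly k pb.gen).Monic := minpoly.monic pb.isIntegral_gen
  refine ⟨_, finite_not_unr hmm (by omega) (Algebra.IsSeparable.isSeparable k pb.gen), ?_⟩
  intro A hA G h
  have hNA : Algebra.norm k A ≠ 0 := by rwa [Ne, Algebra.norm_eq_zero_iff]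
  let b : Basis (Fin 3) k F := Module.finBasisOfFinrankEq k F hF
  have h' : ∀ v : Place k, Nonempty (F →ₐ[k] v.comp) ∨ ∃ c : k, c ≠ 0 ∧
      (GoodF F v (c ^ 6 * Algebra.norm k A) (c ^ 3 * G) ∨
        (Unr (minpoly k pb.gen) v ∧ v.abv (c ^ 6 * Algebra.norm k A) = 1 ∧
          v.abv (c ^ 3 * G) ≤ 1)) := by
    intro v
    rcases h v with h1 | ⟨c, hc, h1 | ⟨h1, h3, h4⟩⟩
    · exact Or.inl h1
    · exact Or.inr ⟨c, hc, Or.inl h1⟩
    · exact Or.inr ⟨c, hc, Or.inr ⟨not_not.mp h1, h3, h4⟩⟩
  by_cases hroot : ∃ ω : k, ω ^ 2 + G * ω = Algebra.norm k A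
  · obtain ⟨ω, hω⟩ := hroot
    set ω' : k := -G - ω with hω'
    have hs : ω + ω' = -G := by rw [hω']; ring
    have hp : ω * ω' = -Algebra.norm k A := by rw [hω']; linear_combination -hω
    by_cases hne : ω = ω'
    · rw [← hne] at hs hp
      exact sol_double b hA hs hp
    · obtain ⟨y, hy⟩ := root_norm (k := k) (F := F) (R := k) (M := F) hF hF
        (by rw [Module.finrank_self]; norm_num) h2 pb hA (G := G) (ω := ω) (ω' := ω')
        (by rw [hs]; rfl) (by rw [hp]; rfl) hne h'
      exact sol_split b hA hs hp hne hy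
  · push Not at hroot
    obtain ⟨R, M, _, _, _, _, _, _, _, _, ω, _, hkR, hRM, hωr, hωk, hdec⟩ :=
      exists_quadF hF pb hroot
    have hc : Nat.Coprime (finrank k R) 3 := by rw [hkR]; norm_num
    haveI : FiniteDimensional R M := Module.finite_of_finrank_pos (by omega)
    set ω' : R := -algebraMap k R G - ω with hω'
    have hs : ω + ω' = -algebraMap k R G := by rw [hω']; ring
    have hp : ω * ω' = -algebraMap k R (Algebra.norm k A) := by
      rw [hω']; linear_combination -hωr
    have hne : ω ≠ ω' := by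
      intro h0
      have h3 : (2 : R) * ω = -algebraMap k R G := by
        rw [← hs, ← h0]; ring
      have h2R : (2 : R) ≠ 0 := by
        have := (_root_.map_ne_zero (algebraMap k R)).mpr h2
        rwa [map_ofNat] at this
      apply hωk (-G / 2)
      rw [map_div₀, map_neg, map_ofNat, ← h3]
      field_simp
    obtain ⟨y, hy⟩ := root_norm (k := k) (F := F) (R := R) (M := M) hF hRM hc h2 pb hA (G := G)
      hs hp hne h'
    have hb := toM_bijective (k := k) (R := R) (E := F) (M := M) Nat.prime_three hF hRM hc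
    let e : R ⊗[k] F ≃ₐ[R] M := AlgEquiv.ofBijective toM hb
    -- decomposition of the elements of the compositum
    have hd : ∀ x : R ⊗[k] F, ∃ p q : F, x = (1 : R) ⊗ₜ[k] p + ω ⊗ₜ[k] q := by
      intro x
      induction x with
      | zero => exact ⟨0, 0, by rw [tmul_zero, tmul_zero, add_zero]⟩
      | add x y hx hy =>
        obtain ⟨p, q, rfl⟩ := hx
        obtain ⟨p', q', rfl⟩ := hy
        exact ⟨p + p', q + q', by rw [tmul_add, tmul_add]; abel⟩
      | tmul c f =>
        obtain ⟨x, y, rfl⟩ := hdec c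
        refine ⟨x • f, y • f, ?_⟩
        rw [add_tmul, TensorProduct.tmul_smul, TensorProduct.tmul_smul, TensorProduct.smul_tmul',
          TensorProduct.smul_tmul', Algebra.smul_def, Algebra.smul_def, mul_one]
    obtain ⟨p, q, hpq⟩ := hd (e.symm y)
    have hi : ∀ f : F, algebraMap F M f = e ((1 : R) ⊗ₜ[k] f) := by
      intro f
      change _ = toM ((1 : R) ⊗ₜ[k] f)
      rw [toM_tmul, map_one, one_mul]
    refine sol_quad (κ := R) (S := M) b hA (algebraMap F M) (fun c => ?_) (fun f => ?_)
      (fun f => ?_) (Module.finBasisOfFinrankEq R M hRM) hωk hωr (p := p) (q := q) ?_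
    · rw [← IsScalarTower.algebraMap_apply, ← IsScalarTower.algebraMap_apply]
    · rw [hi, Algebra.norm_eq_of_algEquiv, norm_one_tmul]
    · rw [hi, Algebra.trace_eq_of_algEquiv, trace_one_tmul]
    · have h3 : y = algebraMap F M p + algebraMap R M ω * algebraMap F M q := by
        have he : ∀ x : R ⊗[k] F, e x = toM x := fun x => rfl
        rw [← e.apply_symm_apply y, hpq, map_add, he, he, toM_tmul, toM_tmul, map_one, one_mul]
      rw [← h3, hy]

end quad

end Vale.Agent.P011.Hey.H63
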